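import Vale.Agent.P290Z.Cov.Spec
import Vale.Agent.P290Z.Nk.Defs
import Vale.Agent.P268.Hol

/-! P290Z, part III, block COV: the data of the double cover. -/

open Set Filter Metric
open scoped Topology Manifold ContDiff

noncomputable section

namespace Vale.Agent.P290Z.Cov

open Vale.Agent.P290 Vale.Agent.P267 Vale.Agent.P290Z.W Vale.Agent.P290Z.Nk

namespace Br

/-- continuous square roots of holomorphic functions are holomorphic -/
theorem analyticAt_of_sq {φ f : C2 → ℂ} {v : C2} (hc : ContinuousAt φ v) (h0 : φ v ≠ 0)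
    (hf : AnalyticAt ℂ f v) (h : ∀ᶠ z in 𝓝 v, φ z ^ 2 = f z) : AnalyticAt ℂ φ v := by
  have hv : φ v ^ 2 = f v := h.self_of_nhds
  have hf0 : f v ≠ 0 := hv ▸ pow_ne_zero 2 h0
  have h1 : AnalyticAt ℂ (fun z => f z / f v) v := hf.div analyticAt_const hf0
  have h2 : f v / f v ∈ Complex.slitPlane := by rw [div_self hf0]; exact Complex.one_mem_slitPlane
  have h3 : AnalyticAt ℂ (fun z => φ v * Complex.exp (Complex.log (f z / f v) / 2)) v :=
    analyticAt_const.mul ((h1.clog h2).div analyticAt_const two_ne_zero).cexp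
  refine h3.congr ?_
  have h4 : ∀ᶠ z in 𝓝 v, φ z + φ v * Complex.exp (Complex.log (f z / f v) / 2) ≠ 0 := by
    refine (hc.add h3.continuousAt).eventually_ne ?_
    simp only [Pi.add_apply, div_self hf0, Complex.log_one, zero_div, Complex.exp_zero, mul_one]
    exact fun h5 => h0 (by linear_combination h5 / 2)
  filter_upwards [h, h4, hf.continuousAt.eventually_ne hf0] with z hz h5 h6
  have h7 : Complex.exp (Complex.log (f z / f v) / 2) ^ 2 = f z / f v := by
    rw [sq, ← Complex.exp_add, add_halves, Complex.exp_log (div_ne_zero h6 hf0)]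
  have h8 : (φ v * Complex.exp (Complex.log (f z / f v) / 2) - φ z) *
      (φ z + φ v * Complex.exp (Complex.log (f z / f v) / 2)) = 0 := by
    have h9 : φ v ^ 2 * (f z / f v) = f z := by rw [hv]; field_simp
    linear_combination φ v ^ 2 * h7 + h9 - hz
  exact sub_eq_zero.1 ((mul_eq_zero.1 h8).resolve_right h5)

variable {Y : W.K3} {n : ℕ} {K : Nik Y n} {A : Nbhd K} (D : DCover A)

theorem tendsto_symm (z : D.Z.X) :
    Tendsto (chartAt C2 z).symm (𝓝 (chartAt C2 z z)) (𝓝 z) :=
  (chartAt C2 z).tendsto_symm (mem_chart_source C2 z)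

theorem rep_id {z : D.Z.X} (hz : z ∉ range D.q) :
    (fun w => chartAt C2 (D.p z) (D.p ((chartAt C2 z).symm w))) =ᶠ[𝓝 (chartAt C2 z z)] id := by
  filter_upwards [(tendsto_symm D z).eventually (D.chart_p z hz),
    (chartAt C2 z).open_target.mem_nhds (mem_chart_target C2 z)] with w h1 h2
  rw [← h1, (chartAt C2 z).right_inv h2]
  rfl

theorem det_one {z : D.Z.X} (hz : z ∉ range D.q) : (fderiv ℂ
    (fun w => chartAt C2 (D.p z) (D.p ((chartAt C2 z).symm w))) (chartAt C2 z z)).det = 1 := by
  rw [(rep_id D hz).fderiv_eq, fderiv_id]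
  exact LinearMap.det_id

/-- the abstract double cover -/
def d2 : D2 Y D.Z.X where
  n := n
  q := D.q
  p := D.p
  j := D.j
  C := K.C
  ε := 100
  ν := A.ν
  pos := by norm_num
  std := A.std
  near i := by
    filter_upwards [self_mem_nhdsWithin, nhdsWithin_le_nhds
      ((chartAt C2 (D.q i)).open_source.mem_nhds (mem_chart_source C2 _))] with z h1 h2
    have h3 : chartAt C2 (D.q i) z ∈ ball (0 : C2) 10 :=
      D.target_q i ▸ (chartAt C2 (D.q i)).map_source h2
    have h4 : chartAt C2 (D.q i) z ≠ 0 := fun h => h1 ((chartAt C2 (D.q i)).injOn h2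
      (mem_chart_source C2 _) (h.trans (D.chart_q i).symm))
    rw [D.chart_q i, sub_zero, ← D.p_q i _ h3 h4, (chartAt C2 (D.q i)).left_inv h2]
  et z hz := by
    have h0 : (chartAt C2 z).symm (chartAt C2 z z) = z :=
      (chartAt C2 z).left_inv (mem_chart_source C2 z)
    refine ⟨?_, ?_, ?_⟩
    · change Tendsto _ _ _
      simp only [h0]
      exact (D.p_cont z hz).tendsto.comp (tendsto_symm D z)
    · simp only [h0]
      exact differentiableAt_id.congr_of_eventuallyEq (rep_id D hz)
    · simp only [h0]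
      rw [det_one D hz]
      exact one_ne_zero
  jc z _ := D.j.continuous.continuousAt
  jq z hz := by
    have h1 : D.j z ≠ z := fun h => hz ((D.j_fix z).1 h)
    refine ⟨fun h => h1 ?_, h1, D.p_j z hz⟩
    have h2 := (D.j_fix _).2 h
    rw [D.j_j] at h2
    exact h2.symm
  fib z hz z' hz' h := D.fib z z' hz hz' h.symm
  cov y := by
    by_cases h : y ∈ K.br
    · exact Or.inr h
    · obtain ⟨z, h1, h2⟩ := D.surj y h
      exact Or.inl ⟨z, h1, h2⟩

theorem jac (h : B1 D.Z.X) : Jac (Y := Y) (Z := D.Z.k3 h) (d2 D) := by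
  intro z hz
  have h1 := det_one D hz
  have h2 := D.om_p z hz
  change H445.Om Y (D.p z) * (fderiv ℂ
    (fun w => chartAt C2 (D.p z) (D.p ((chartAt C2 (M := D.Z.X) z).symm w)))
      (chartAt C2 (M := D.Z.X) z z)).det = D.Z.Om z
  rw [h1, h2, mul_one]

/-- the line bundle of the cover -/
theorem exists_ld : ∃ B : LD (d2 D) K.ι, B.L = K.L := by
  choose U e f hU he hf hS using K.loc
  refine ⟨⟨K.L, K.a, K.hol, e, fun x => ?_, D.w, D.w_j, fun z hz => ?_⟩, rfl⟩
  · filter_upwards [(he x).isOpen.mem_nhds (hU x)] with y hy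
    refine ⟨(he x).reg _ (chart_mem_atlas _ y) _ (mem_chart_target _ y) ?_, (he x).ne y hy,
      (he x).sec y hy, fun i => congrFun ((he x).hol y hy) i⟩
    rwa [(chartAt FL.C2 y).left_inv (mem_chart_source _ y)]
  · change z ∉ range D.q at hz
    set y := D.p z with hy
    obtain ⟨k, hk⟩ : ∃ k, e y y k ≠ 0 := by
      by_contra h
      push Not at h
      exact (he y).ne y (hU y) (by ext k; exact h k)
    have hp := D.p_cont z hz
    have ce : ContinuousAt (e y) y := by
      have h1 := ((he y).reg _ (chart_mem_atlas _ y) _ (mem_chart_target _ y) (by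
        rw [(chartAt FL.C2 y).left_inv (mem_chart_source _ y)]
        exact hU y)).continuousAt
      refine (ContinuousAt.comp (g := fun w => e y ((chartAt FL.C2 y).symm w)) h1
        ((chartAt FL.C2 y).continuousAt (mem_chart_source _ y))).congr ?_
      filter_upwards [(chartAt FL.C2 y).open_source.mem_nhds (mem_chart_source _ y)] with y' h'
      simp only [Function.comp_apply]
      rw [(chartAt FL.C2 y).left_inv h']
    have cek : ContinuousAt (fun z' => e y (D.p z') k) z :=
      (EuclideanSpace.proj (𝕜 := ℂ) k).continuous.continuousAt.comp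
        (ContinuousAt.comp (g := e y) ce hp)
    have cwk : ContinuousAt (fun z' => D.w z' k) z :=
      (EuclideanSpace.proj (𝕜 := ℂ) k).continuous.continuousAt.comp (D.w_cont z hz)
    have hq : ∀ᶠ z' in 𝓝 z, z' ∉ range D.q := (finite_range D.q).isClosed.isOpen_compl.mem_nhds hz
    have hev : ∀ᶠ z' in 𝓝 z, e y (D.p z') k ≠ 0 ∧ f y (D.p z') ≠ 0 ∧
        ∀ j m, D.w z' j * D.w z' m = f y (D.p z') * (e y (D.p z') j * e y (D.p z') m) := by
      filter_upwards [hq, hp.eventually ((he y).isOpen.mem_nhds (hU y)), cek.eventually_ne hk]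
        with z' h1 h2 h3
      refine ⟨h3, fun h => D.off z' h1 ((hS y _ h2).2.1.1 h), fun j m => ?_⟩
      rw [D.w_sq z' h1, (hS y _ h2).1]
    have hsq : ∀ᶠ z' in 𝓝 z, (D.w z' k / e y (D.p z') k) ^ 2 = f y (D.p z') := by
      filter_upwards [hev] with z' h
      rw [div_pow, sq, h.2.2, div_eq_iff (pow_ne_zero 2 h.1), sq]
    have hne : ∀ᶠ z' in 𝓝 z, D.w z' k / e y (D.p z') k ≠ 0 := by
      filter_upwards [hev, hsq] with z' h h' h0
      rw [h0] at h'
      exact h.2.1 (by rw [← h']; ring)
    have h0 : (chartAt C2 z).symm (chartAt C2 z z) = z :=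
      (chartAt C2 z).left_inv (mem_chart_source C2 z)
    refine ⟨fun z' => D.w z' k / e y (D.p z') k, ?_, hne.self_of_nhds, ?_⟩
    · refine analyticAt_of_sq (f := fun v => f y ((chartAt C2 y).symm v)) ?_ ?_ ?_ ?_
      · change Tendsto _ _ _
        simp only [h0]
        exact (cwk.div cek hk).tendsto.comp (tendsto_symm D z)
      · simp only [h0]
        exact hne.self_of_nhds
      · have h1 := (H445.holOn_zero_iff Y).1 (hf y) _ (chart_mem_atlas C2 y)
        have h2 : chartAt C2 z z = chartAt C2 y y := (D.chart_p z hz).self_of_nhds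
        have h3 : IsOpen ((chartAt C2 y).target ∩ (chartAt C2 y).symm ⁻¹' U y) :=
          (chartAt C2 y).isOpen_inter_preimage_symm (he y).isOpen
        rw [h2]
        refine P268.analyticAt_of_differentiableOn h3 h1 ⟨mem_chart_target C2 y, ?_⟩
        rw [mem_preimage, (chartAt C2 y).left_inv (mem_chart_source _ y)]
        exact hU y
      · filter_upwards [(tendsto_symm D z).eventually hsq, rep_id D hz, (tendsto_symm D z).eventually
          (hp.eventually ((chartAt C2 y).open_source.mem_nhds (mem_chart_source _ y)))]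
          with v h1 h2 h3
        rw [h1]
        congr 1
        rw [← (chartAt C2 y).left_inv h3]
        exact congrArg _ h2
    · filter_upwards [hev, hne] with z' h h'
      ext j
      have h1 : D.w z' k ≠ 0 := fun h0 => h' (by rw [h0, zero_div])
      change D.w z' j = D.w z' k / e y (D.p z') k * e y (D.p z') j
      rw [div_mul_eq_mul_div, eq_div_iff h.1]
      apply mul_left_cancel₀ h1
      linear_combination e y (D.p z') k * h.2.2 j k - e y (D.p z') j * h.2.2 k k

end Br

end Vale.Agent.P290Z.Cov
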