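import Vale.Agent.P290Z.Cov.Spec
import Vale.Agent.P290Z.W.H416K3FL
import Vale.Agent.P267.H399.Calc3
import Vale.Agent.P267.H399.LBCalc

/-! P290Z, part III, block COV: from Dolbeault cohomology to families of germs. -/

open Set Filter
open scoped Topology Manifold ContDiff ComplexConjugate

noncomputable section

namespace Vale.Agent.P290Z.Cov

open Vale.Agent.P290 Vale.Agent.P267 Vale.Agent.P290Z.W
open Vale.Agent.P267.FL (LB At0 At1 HolAt Reg0 Reg1 dbar0 dbar1)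

namespace CechA

section smooth

variable {X : Type} [TopologicalSpace X] [ChartedSpace FL.C2 X] [IsManifold 𝓘(ℂ, FL.C2) ω X]
  [T2Space X] [CompactSpace X]

/-- smooth splitting of a family of germs -/
theorem split {V : Type} [NormedAddCommGroup V] [NormedSpace ℂ V] (Q : X → Submodule ℂ V)
    {u : X → X → V} (h : ∀ x, ∀ᶠ y in 𝓝 x, At0 ∞ 0 (u x - u y) y ∧ u x y - u y y ∈ Q y) :
    ∃ s : X → V, ∀ y, At0 ∞ 0 (s - u y) y ∧ s y - u y y ∈ Q y := by
  have := FL.isManifold_real' (X := X) ∞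
  obtain ⟨ρ, hρ⟩ := SmoothPartitionOfUnity.exists_isSubordinate 𝓘(ℝ, FL.C2) isClosed_univ
    (fun x => interior {y | At0 ∞ 0 (u x - u y) y ∧ u x y - u y y ∈ Q y})
    (fun _ => isOpen_interior) fun x _ => mem_iUnion.2 ⟨x, mem_interior_iff_mem_nhds.2 (h x)⟩
  have key : ∀ y z, (∑ᶠ i, ρ i z • u i z) - u y z = ∑ᶠ i, ρ i z • (u i - u y) z := by
    intro y z
    rw [← ρ.sum_finsupport_smul_eq_finsum z u,
      ← ρ.sum_finsupport_smul_eq_finsum z fun i => u i - u y]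
    simp only [Pi.sub_apply, smul_sub, Finset.sum_sub_distrib]
    rw [← Finset.sum_smul, ρ.sum_finsupport z (mem_univ z), one_smul]
  refine ⟨fun z => ∑ᶠ i, ρ i z • u i z, fun y => ⟨?_, ?_⟩⟩
  · have h1 := ρ.contMDiffAt_finsum (n := ⊤) (x₀ := y) (g := fun i => u i - u y) fun i hi =>
      FL.contMDiffAt_iff_at0.2 (interior_subset (hρ i hi)).1
    exact (FL.contMDiffAt_iff_at0.1 h1).congr (Eventually.of_forall fun z => key y z)
  · rw [key, ← ρ.sum_finsupport_smul_eq_finsum y fun i => u i - u y]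
    refine Submodule.sum_mem _ fun i hi => ?_
    have h1 : y ∈ tsupport (ρ i) := subset_tsupport _ ((ρ.mem_finsupport y).1 hi)
    rw [← Complex.coe_smul]
    exact Submodule.smul_mem _ _ (interior_subset (hρ i h1)).2

theorem one_le : (1 : WithTop ℕ∞) ≤ ∞ := by simp

theorem two_le : (2 : WithTop ℕ∞) ≤ ∞ := WithTop.coe_le_coe.2 le_top

/-- functions -/
theorem scalar (H : ∀ a : X → Fin 2 → ℂ, Reg1 ∞ 0 a → (∀ x, dbar1 0 a x = 0) →
      ∃ t : X → ℂ, Reg0 ∞ 0 t ∧ ∀ x i, dbar0 0 t x i = a x i)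
    {u : X → X → ℂ} (h : ∀ x, ∀ᶠ y in 𝓝 x, HolAt 0 (u x - u y) y) :
    ∃ s : X → ℂ, ∀ x, HolAt 0 (s - u x) x := by
  obtain ⟨s, hs⟩ := split (fun _ => ⊤) (u := u) fun x => (h x).mono fun y hy => ⟨hy.at0, trivial⟩
  have key : ∀ x, ∀ᶠ y in 𝓝 x, At0 ∞ 0 (s - u x) y ∧
      dbar0 0 (s - u y) y = dbar0 0 (s - u x) y := fun x => (h x).mono fun y hy => by
    have e : s - u x = fun z => (s - u y) z - (u x - u y) z := by
      funext z
      simp
    rw [e]
    refine ⟨(hs y).1.sub hy.at0, ?_⟩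
    rw [FL.dbar0_sub ((hs y).1.of_le one_le) hy.at0, hy.dbar0, sub_zero]
  have key2 : ∀ x, (fun y => dbar0 0 (s - u y) y) =ᶠ[𝓝 x] dbar0 0 (s - u x) := fun x =>
    (key x).mono fun y hy => hy.2
  obtain ⟨t, ht, ht'⟩ := H (fun y => dbar0 0 (s - u y) y)
    (FL.reg1_iff_at.2 fun x => ((hs x).1.dbar (by simp)).congr (key2 x))
    fun x => by rw [FL.dbar1_congr (key2 x), FL.dbar1_dbar0 ((hs x).1.of_le two_le)]
  refine ⟨s - t, fun x => ?_⟩
  have e : s - t - u x = fun z => (s - u x) z - t z := by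
    funext z
    simp only [Pi.sub_apply]
    ring
  rw [e]
  refine FL.holAt_of_dbar0 ((key x).mono fun y hy => ?_)
  have h1 := hy.1.of_le one_le
  have h2 := (ht.at y).of_le one_le
  refine ⟨h1.sub h2, ?_⟩
  rw [FL.dbar0_sub h1 h2, ← hy.2, sub_eq_zero]
  exact funext fun i => (ht' y i).symm

variable {ι : Type} [Fintype ι] [DecidableEq ι] {L : LB X ι} {a : X → Fin 2 → ℂ}

/-- the fibre of the line bundle -/
def fib (L : LB X ι) (y : X) : Submodule ℂ (EuclideanSpace ℂ ι) where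
  carrier := {v | LB.act (L.P y) v = v}
  add_mem' := fun {v w} hv hw => by
    rw [mem_ofPred_eq, RR.act_add, hv, hw]
  zero_mem' := RR.act_zero _
  smul_mem' := fun c v hv => by
    rw [mem_ofPred_eq, RR.act_smul, hv]

omit [T2Space X] [CompactSpace X] in
theorem at0_of_sm {V : Type} [NormedAddCommGroup V] [NormedSpace ℂ V] {f : X → V} {x : X} :
    At0 ∞ 0 f x ↔ H451.Sm f x := FL.at0_zero_iff

omit [T2Space X] [CompactSpace X] in
/-- holomorphic multiples of a frame -/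
theorem of_mul {v t : X → EuclideanSpace ℂ ι} {φ : X → ℂ} {y : X} (hv : H451.FrameAt L a v y)
    (hφ : HolAt 0 φ y) (ht : ∀ᶠ z in 𝓝 y, t z = φ z • v z) :
    At0 ∞ 0 t y ∧ t y ∈ fib L y ∧ L.db0 a 0 t y = 0 := by
  have h1 : At0 ∞ 0 v y := at0_of_sm.2 hv.sm
  refine ⟨(hφ.at0.smul h1).congr ht, ?_, ?_⟩
  · rw [ht.self_of_nhds]
    exact Submodule.smul_mem _ _ hv.sec
  · rw [LB.db0_congr ht]
    funext i
    rw [LB.db0_smul hφ.at0 (h1.of_le one_le) hv.sec, hφ.dbar0, hv.hol]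
    simp

omit [T2Space X] [CompactSpace X] in
/-- holomorphic sections are holomorphic multiples of a frame -/
theorem to_mul {v t : X → EuclideanSpace ℂ ι} {x : X} (hv : ∀ᶠ y in 𝓝 x, H451.FrameAt L a v y)
    (ht : ∀ᶠ y in 𝓝 x, At0 ∞ 0 t y ∧ t y ∈ fib L y ∧ L.db0 a 0 t y = 0) :
    ∃ φ : X → ℂ, HolAt 0 φ x ∧ ∀ᶠ y in 𝓝 x, t y = φ y • v y := by
  have h1 : ∀ᶠ y in 𝓝 x,
      t y = (∑ k, conj (v y k) / H451.nsqv (fun k => v y k) * t y k) • v y := by
    filter_upwards [hv, ht] with y h1 h2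
    rw [← H451.act_proj1, ← h1.P_eq]
    exact h2.2.1.symm
  refine ⟨_, FL.holAt_of_dbar0 ?_, h1⟩
  filter_upwards [hv, ht, h1.eventually_nhds] with y h1 h2 h3
  have hv' : ∀ k, H451.Sm (fun y => v y k) y := H451.sm_euclid.1 h1.sm
  have ht' : ∀ k, H451.Sm (fun y => t y k) y := H451.sm_euclid.1 (at0_of_sm.1 h2.1)
  have h4 : H451.Sm (fun y => H451.nsqv fun k => v y k) y :=
    H451.Sm.sum fun j _ => (hv' j).mul (hv' j).conj
  have h5 : At0 1 0 (fun y => ∑ k, conj (v y k) / H451.nsqv (fun k => v y k) * t y k) y :=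
    (at0_of_sm.2 (H451.Sm.sum fun k _ =>
      ((hv' k).conj.div h4 (H451.nsqv_ne (H451.ofLp_ne h1.ne))).mul (ht' k))).of_le one_le
  refine ⟨h5, funext fun i => ?_⟩
  have h6 := congrFun h2.2.2 i
  rw [LB.db0_congr h3, LB.db0_smul h5 ((at0_of_sm.2 h1.sm).of_le one_le) h1.sec, h1.hol,
    smul_zero, add_zero] at h6
  exact (smul_eq_zero.1 h6).resolve_right h1.ne

/-- sections -/
theorem bundle (hL : L.IsHol a) (H : RR.Z1 L a 0 ≤ RR.B1 L a 0) {u : X → X → EuclideanSpace ℂ ι}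
    (h : ∀ x, ∀ᶠ y in 𝓝 x,
      At0 ∞ 0 (u x - u y) y ∧ (u x - u y) y ∈ fib L y ∧ L.db0 a 0 (u x - u y) y = 0) :
    ∃ s : X → EuclideanSpace ℂ ι, ∀ x, ∀ᶠ y in 𝓝 x,
      At0 ∞ 0 (s - u x) y ∧ (s - u x) y ∈ fib L y ∧ L.db0 a 0 (s - u x) y = 0 := by
  obtain ⟨s, hs⟩ := split (fib L) (u := u) fun x => (h x).mono fun y hy => ⟨hy.1, hy.2.1⟩
  have key : ∀ x, ∀ᶠ y in 𝓝 x, At0 ∞ 0 (s - u x) y ∧ (s - u x) y ∈ fib L y ∧
      L.db0 a 0 (s - u y) y = L.db0 a 0 (s - u x) y := fun x => (h x).mono fun y hy => by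
    have e : s - u x = fun z => (s - u y) z - (u x - u y) z := by
      funext z
      simp
    rw [e]
    refine ⟨(hs y).1.sub hy.1, Submodule.sub_mem _ (hs y).2 hy.2.1, ?_⟩
    rw [LB.db0_sub ((hs y).1.of_le one_le) (hy.1.of_le one_le), hy.2.2, sub_zero]
  have key2 : ∀ x, (fun y => L.db0 a 0 (s - u y) y) =ᶠ[𝓝 x] L.db0 a 0 (s - u x) := fun x =>
    (key x).mono fun y hy => hy.2.2
  have hZ : (fun y => L.db0 a 0 (s - u y) y) ∈ RR.Z1 L a 0 := by
    refine (RR.mem_Z1 L a 0).2 ⟨⟨FL.reg1_iff_at.2 fun x =>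
      (LB.at1_db0 le_rfl (hL.smooth.at x) (hs x).1 (by simp)).congr (key2 x),
      fun x i => L.sec1_db0 (s := s - u x) (hs x).2 i⟩, funext fun x => ?_⟩
    rw [LB.db1_congr (key2 x)]
    exact LB.db1_db0_eq_zero hL ((key x).mono fun y hy => hy.2.1) ((hs x).1.of_le two_le)
  obtain ⟨t, ⟨ht, ht1⟩, ht'⟩ := (RR.mem_B1 L a 0).1 (H hZ)
  refine ⟨s - t, fun x => ?_⟩
  have e : s - t - u x = fun z => (s - u x) z - t z := by
    funext z
    simp only [Pi.sub_apply]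
    abel
  rw [e]
  refine (key x).mono fun y hy => ⟨hy.1.sub (ht.at y), Submodule.sub_mem _ hy.2.1 (ht1 y), ?_⟩
  rw [LB.db0_sub (hy.1.of_le one_le) ((ht.at y).of_le one_le), ← hy.2.2, ht', sub_self]

end smooth

/-- the two notions of a holomorphic germ agree -/
theorem ha_iff {Y : W.K3} {f : Y.X → ℂ} {x : Y.X} : HA f x ↔ HolAt 0 f x := by
  rw [HolAt, LB.loc0_zero, W.H445.chartAt_FL]
  constructor
  · intro h
    have h1 : AnalyticAt ℂ (fun z => f ((chartAt C2 x).symm z))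
        (P290.H445.φ.symm (P290.H445.φ (chartAt C2 x x))) := by
      rw [ContinuousLinearEquiv.symm_apply_apply]
      exact h
    exact AnalyticAt.comp (f := P290.H445.φ.symm) h1 (P290.H445.φ.symm.analyticAt _)
  · intro h
    have h1 := AnalyticAt.comp (f := P290.H445.φ) (x := chartAt C2 x x) h
      (P290.H445.φ.analyticAt _)
    refine h1.congr (Eventually.of_forall fun z => ?_)
    simp only [Function.comp, P290.H445.toFL_symm_apply, ContinuousLinearEquiv.symm_apply_apply]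

end CechA

open CechA

/-- CECH: from Dolbeault cohomology to families of germs -/
theorem cech : StCech := by
  intro Y
  refine ⟨fun u hu => ?_, fun ι _ _ L a e hL he H u hu => ?_⟩
  · obtain ⟨s, hs⟩ := scalar (fun a h1 h2 => W.H416.dbar_solve h1 h2) (u := u)
      fun x => (hu x).mono fun y hy => ha_iff.1 hy
    exact ⟨s, fun x => ha_iff.2 (hs x)⟩
  · obtain ⟨s, hs⟩ := bundle hL H (u := u) fun x => (hu x).mono fun y ⟨φ, h1, h2⟩ =>
      of_mul (he y).self_of_nhds (ha_iff.1 h1) h2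
    refine ⟨s, fun x => ?_⟩
    obtain ⟨φ, h1, h2⟩ := to_mul (he x) (hs x)
    exact ⟨φ, ha_iff.2 h1, h2⟩

end Vale.Agent.P290Z.Cov
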