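import Vale.Agent.P290Z.Cov.Spec
import Vale.Agent.P290Z.Inv.Loc

/-! P290Z, part III, block COV: curves through the fixed points and discs through the curves. -/

open Set Filter Metric
open scoped Topology Manifold ContDiff

noncomputable section

namespace Vale.Agent.P290Z.Cov

open Vale.Agent.P290 Vale.Agent.P290Z.W Vale.Agent.P290Z.Nk
open Vale.Agent.P290.All (dir)

namespace CvrA

theorem dir_ne (b : Bool) (u : ℂ) : dir b u ≠ 0 := by
  cases b <;> simp [dir]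

/-- a germ with values in nonzero vectors in the homogeneous coordinates -/
theorem exists_dir {d : ℂ → C2} {c : ℂ} (hd : AnalyticAt ℂ d c) (h : d c ≠ 0) :
    ∃ (b : Bool) (s u : ℂ → ℂ), DifferentiableAt ℂ s c ∧ DifferentiableAt ℂ u c ∧
      ∀ᶠ z in 𝓝 c, s z ≠ 0 ∧ d z = s z • dir b (u z) := by
  have h1 : DifferentiableAt ℂ (fun z => (d z).1) c := hd.differentiableAt.fst
  have h2 : DifferentiableAt ℂ (fun z => (d z).2) c := hd.differentiableAt.snd
  by_cases hc : (d c).1 = 0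
  · have hc2 : (d c).2 ≠ 0 := fun h' => h (Prod.ext hc h')
    refine ⟨false, fun z => (d z).2, fun z => (d z).1 / (d z).2, h2, h1.div h2 hc2, ?_⟩
    filter_upwards [h2.continuousAt.eventually_ne hc2] with z hz
    refine ⟨hz, Prod.ext ?_ ?_⟩
    · simp only [dir, cond_false, Prod.smul_fst, smul_eq_mul]
      field_simp
    · simp [dir]
  · refine ⟨true, fun z => (d z).1, fun z => (d z).2 / (d z).1, h1, h2.div h1 hc, ?_⟩
    filter_upwards [h1.continuousAt.eventually_ne hc] with z hz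
    refine ⟨hz, Prod.ext ?_ ?_⟩
    · simp [dir]
    · simp only [dir, cond_true, Prod.smul_snd, smul_eq_mul]
      field_simp

variable {Y Z : W.K3} (D : D2 Y Z.X)

theorem md_nu (i : Fin D.n) (b : Bool) {h u : ℂ → ℂ} {c : ℂ} (hh : DifferentiableAt ℂ h c)
    (hu : DifferentiableAt ℂ u c) (hs : ‖h c‖ * ‖dir b (u c)‖ ^ 2 < D.ε) :
    MD (fun z => D.ν i (h z) (dir b (u z))) c :=
  Inv.md_comp (f := fun w : C2 => D.ν i w.1 (dir b w.2)) (q := fun z => (h z, u z))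
    (Inv.etale_md ((D.std i).etale b (h c, u c) ⟨dir_ne _ _, hs⟩)) (hh.prodMk hu)

theorem hol {z : Z.X} (hz : z ∉ range D.q) : All.Hol D.p z := by
  obtain ⟨h1, h2, -⟩ := D.et z hz
  have e : (chartAt C2 z).symm (chartAt C2 z z) = z :=
    (chartAt C2 z).left_inv (mem_chart_source C2 z)
  refine ⟨?_, ?_⟩
  · have h3 := ContinuousAt.comp (f := chartAt C2 z) h1
      ((chartAt C2 z).continuousAt (mem_chart_source C2 z))
    refine h3.congr ?_
    filter_upwards [chart_source_mem_nhds C2 z] with y hy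
    simp only [Function.comp]
    rw [(chartAt C2 z).left_inv hy]
  · simpa only [e] using h2

theorem lift (g : ℂ → Z.X) (c : ℂ) (hc : g c ∈ range D.q) (hg : ∀ᶠ c' in 𝓝 c, MD g c')
    (hne : ∀ᶠ c' in 𝓝[≠] c, g c' ≠ g c) :
    ∃ y, MD (Function.update (fun c' => D.p (g c')) c y) c := by
  obtain ⟨i, hi⟩ := hc
  have hgc : ContinuousAt g c := MDifferentiableAt.continuousAt hg.self_of_nhds
  have hsrc : ∀ᶠ c' in 𝓝 c, g c' ∈ (chartAt C2 (D.q i)).source :=
    hgc.eventually (by rw [← hi]; exact chart_source_mem_nhds C2 _)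
  have hG : AnalyticAt ℂ
      (fun c' => chartAt C2 (D.q i) (g c') - chartAt C2 (D.q i) (D.q i)) c := by
    refine Complex.analyticAt_iff_eventually_differentiableAt.2 ?_
    filter_upwards [hg, hsrc] with z h1 h2
    exact (Inv.md_chart h1 h2).sub_const _
  have hG0 : ¬ ∀ᶠ z in 𝓝 c, chartAt C2 (D.q i) (g z) - chartAt C2 (D.q i) (D.q i) = 0 := by
    intro h
    obtain ⟨z, h1, h2, h3⟩ := (hne.and ((h.and hsrc).filter_mono nhdsWithin_le_nhds)).exists
    exact h1 (((chartAt C2 (D.q i)).injOn h3 (mem_chart_source C2 _) (sub_eq_zero.1 h2)).trans hi)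
  obtain ⟨n, d, hd, hd0, hGd⟩ := hG.exists_eventuallyEq_pow_smul_nonzero_iff.2 hG0
  have hn : n ≠ 0 := by
    rintro rfl
    have h := hGd.self_of_nhds
    rw [← hi, sub_self, pow_zero, one_smul] at h
    exact hd0 h.symm
  obtain ⟨b, s, u, hs, hu, hsu⟩ := exists_dir hd hd0
  have hh : DifferentiableAt ℂ (fun z => ((z - c) ^ n * s z) ^ 2) c := by fun_prop
  have h0 : ((c - c) ^ n * s c) ^ 2 = 0 := by simp [hn]
  have hmd := md_nu D i b hh hu (by rw [h0]; simpa using D.pos)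
  have hT : Tendsto g (𝓝[≠] c) (𝓝[≠] (D.q i)) := by
    rw [hi]
    exact tendsto_nhdsWithin_iff.2 ⟨hgc.tendsto.mono_left nhdsWithin_le_nhds, hne⟩
  refine ⟨D.ν i (((c - c) ^ n * s c) ^ 2) (dir b (u c)),
    MDifferentiableAt.congr_of_eventuallyEq hmd ?_⟩
  filter_upwards [eventually_nhdsWithin_iff.1 (hT.eventually (D.near i)), hGd, hsu]
    with z h1 h2 h3
  by_cases hz : z = c
  · rw [hz, Function.update_self]
  · rw [Function.update_of_ne hz, h1 hz, h2, h3.2, smul_smul, ← (D.std i).hom 1 _ _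
      (mul_ne_zero (pow_ne_zero n (sub_ne_zero.2 hz)) h3.1), one_mul]

theorem exists_rad (i : Fin D.n) : ∃ δ > (0 : ℝ), ∀ v : C2, v ≠ 0 → ‖v‖ < δ →
    D.ν i 1 v ∈ D.p '' (range D.q)ᶜ := by
  set e := chartAt C2 (D.q i) with he
  have hq : D.q i ∈ e.source := mem_chart_source C2 _
  have h1 : ∀ᶠ z in 𝓝[≠] (D.q i), z ∉ range D.q := by
    have h2 : IsClosed (range D.q \ {D.q i}) := ((finite_range D.q).sdiff).isClosed
    filter_upwards [self_mem_nhdsWithin, mem_nhdsWithin_of_mem_nhds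
      (h2.isOpen_compl.mem_nhds fun h => h.2 rfl)] with z h3 h4 h5
    exact h4 ⟨h5, h3⟩
  have h2 := (e.tendsto_symm hq).eventually (eventually_nhdsWithin_iff.1 (h1.and (D.near i)))
  obtain ⟨δ, hδ, h3⟩ := Metric.eventually_nhds_iff.1
    (h2.and (e.open_target.mem_nhds (e.map_source hq)))
  refine ⟨δ, hδ, fun v hv hvδ => ?_⟩
  obtain ⟨h4, h5⟩ := h3 (y := e (D.q i) + v) (by simpa using hvδ)
  have h6 : e (e.symm (e (D.q i) + v)) = e (D.q i) + v := e.right_inv h5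
  obtain ⟨h7, h8⟩ := h4 fun h => hv (by
    have h' : e.symm (e (D.q i) + v) = D.q i := h
    rw [h'] at h6
    simpa using h6)
  refine ⟨_, h7, ?_⟩
  rw [h8, h6, add_sub_cancel_left]

theorem cover (x : Y.X) : x ∈ D.p '' (range D.q)ᶜ ∨ ∃ (g : ℂ → Y.X) (R : ℝ), 1 < R ∧ g 0 = x ∧
    (∀ c : ℂ, ‖c‖ < R → MD g c) ∧ ∀ c : ℂ, ‖c‖ = 1 → g c ∈ D.p '' (range D.q)ᶜ := by
  rcases D.cov x with ⟨z, hz, rfl⟩ | ⟨i, b, u, rfl⟩
  · exact Or.inl ⟨z, hz, rfl⟩
  right
  obtain ⟨δ, hδ, hδ'⟩ := exists_rad D i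
  have hd : 0 < ‖dir b u‖ := norm_pos_iff.2 (dir_ne b u)
  have hε := D.pos
  obtain ⟨r, hr, hr1, hr2⟩ : ∃ r > (0 : ℝ), 2 * r * ‖dir b u‖ ^ 2 < D.ε ∧
      r * ‖dir b u‖ ^ 2 < δ ^ 2 := by
    have hm : 0 < min D.ε (δ ^ 2) := by positivity
    have e : min D.ε (δ ^ 2) / (4 * ‖dir b u‖ ^ 2) * ‖dir b u‖ ^ 2 = min D.ε (δ ^ 2) / 4 := by
      field_simp
    have e1 := min_le_left D.ε (δ ^ 2)
    have e2 := min_le_right D.ε (δ ^ 2)
    refine ⟨min D.ε (δ ^ 2) / (4 * ‖dir b u‖ ^ 2), by positivity, ?_, ?_⟩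
    · rw [mul_assoc, e]; linarith
    · rw [e]; linarith
  refine ⟨fun c => D.ν i (r * c) (dir b u), 2, one_lt_two, ?_, fun c hc => ?_, fun c hc => ?_⟩
  · simp only [mul_zero]
    exact (D.std i).zero b u
  · refine md_nu D i b (h := fun c => r * c) (u := fun _ => u) (by fun_prop) (by fun_prop) ?_
    rw [norm_mul, Complex.norm_real, Real.norm_eq_abs, abs_of_pos hr]
    have : r * ‖c‖ * ‖dir b u‖ ^ 2 ≤ r * 2 * ‖dir b u‖ ^ 2 := by gcongr
    linarith
  · obtain ⟨t, ht⟩ := IsAlgClosed.exists_pow_nat_eq ((r : ℂ) * c) two_pos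
    have ht2 : ‖t‖ ^ 2 = r := by
      rw [← norm_pow, ht, norm_mul, hc, mul_one, Complex.norm_real, Real.norm_eq_abs,
        abs_of_pos hr]
    have ht0 : t ≠ 0 := by
      rintro rfl
      rw [norm_zero] at ht2
      linarith
    have h1 := (D.std i).hom 1 t (dir b u) ht0
    rw [one_mul, ht] at h1
    show D.ν i (r * c) (dir b u) ∈ _
    rw [h1]
    refine hδ' _ (smul_ne_zero ht0 (dir_ne b u)) ?_
    refine lt_of_pow_lt_pow_left₀ 2 hδ.le ?_
    rw [norm_smul, mul_pow, ht2]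
    exact hr2

end CvrA

/-- CVR: curves and discs -/
theorem cvr : StCvr := fun _ _ D hJ =>
  ⟨⟨D.p, range D.q, finite_range D.q, fun _ hz => CvrA.hol D hz, hJ, CvrA.lift D, CvrA.cover D⟩⟩

end Vale.Agent.P290Z.Cov
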