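import Vale.Agent.P290Z.Cov.Spec
import Vale.Agent.P290.H686.LBPull
import Vale.Agent.P267.H332.Pair.Pair

/-! P290Z, part III, block COV, step EXT: line bundles pull back to the cover, up to a change near
the finitely many points where the covering map is not defined. -/

open Set Filter
open scoped Topology Manifold ContDiff Matrix ComplexConjugate

noncomputable section

namespace Vale.Agent.P290Z.Cov

namespace Ext

open Vale.Agent.P267 Vale.Agent.P267.FL Vale.Agent.P267.H451 Vale.Agent.P290.H686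

variable {ι : Type} [Fintype ι] [DecidableEq ι]

/-- extension of a matrix by zero -/
def ex0 (M : Matrix ι ι ℂ) : Matrix (ι ⊕ Unit) (ι ⊕ Unit) ℂ := Matrix.fromBlocks M 0 0 0

omit [DecidableEq ι] in
theorem ex0_mul (M N : Matrix ι ι ℂ) : ex0 M * ex0 N = ex0 (M * N) := by
  simp [ex0, Matrix.fromBlocks_multiply]

omit [Fintype ι] [DecidableEq ι] in
theorem ex0_sub (M N : Matrix ι ι ℂ) : ex0 M - ex0 N = ex0 (M - N) := by
  ext a b
  rcases a with a | a <;> rcases b with b | b <;> simp [ex0]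

omit [DecidableEq ι] in
theorem ex0_trace (M : Matrix ι ι ℂ) : (ex0 M).trace = M.trace := by
  simp [ex0, Matrix.trace]

omit [Fintype ι] [DecidableEq ι] in
theorem ex0_herm (M : Matrix ι ι ℂ) : (ex0 M)ᴴ = ex0 Mᴴ := by
  simp [ex0, Matrix.fromBlocks_conjTranspose]

omit [DecidableEq ι] in
theorem proj1_elim (v : ι → ℂ) : proj1 (Sum.elim v fun _ : Unit => (0 : ℂ)) = ex0 (proj1 v) := by
  have h : nsqv (Sum.elim v fun _ : Unit => (0 : ℂ)) = nsqv v := by
    simp [nsqv]
  ext a b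
  rcases a with a | a <;> rcases b with b | b <;> simp [ex0, proj1, h]

variable {X : Type} [TopologicalSpace X] [ChartedSpace FL.C2 X]
variable {Y : Type} [TopologicalSpace Y] [ChartedSpace FL.C2 Y]

theorem val1_congr {f g : X → ℂ} {x : X} (h : f =ᶠ[𝓝 x] g) :
    val1 (dF0 f) x = val1 (dF0 g) x := by
  have h1 : del0 f x = del0 g x := funext fun i => by rw [del0_eq, del0_eq, DT_congr _ h]
  have h2 : dbar0 0 f x = dbar0 0 g x := funext fun i => dbar0_congr h i
  simp only [val1, dF0, h1, h2]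

theorem val1_zero (x : X) (v : FL.C2) : val1 (dF0 fun _ : X => (0 : ℂ)) x v = 0 := by
  simp only [val1, dF0, ev1_apply, del0_eq, dbar0_eq, DT_const]
  simp

/-- the curvature at a point depends only on the germ of the projector -/
theorem curv_germ (L : LB X ι) (L' : LB X (ι ⊕ Unit)) {x : X}
    (h : ∀ᶠ y in 𝓝 x, L'.P y = ex0 (L.P y)) : val2 L'.curv x = val2 L.curv x := by
  have hd : ∀ v, dM L' x v = ex0 (dM L x v) := by
    intro v
    ext a b
    have h1 : (fun y => L'.P y a b) =ᶠ[𝓝 x] fun y => ex0 (L.P y) a b := by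
      filter_upwards [h] with y hy
      rw [hy]
    have h2 : dM L' x v a b = val1 (dF0 fun y => ex0 (L.P y) a b) x v := by
      rw [← val1_congr h1]
      rfl
    rw [h2]
    rcases a with a | a <;> rcases b with b | b
    · rfl
    · exact val1_zero x v
    · exact val1_zero x v
    · exact val1_zero x v
  ext v w
  rw [val2_curv, val2_curv, hd, hd, h.self_of_nhds, ex0_mul, ex0_mul, ex0_sub, ex0_mul, ex0_trace]

theorem pb2_germ {φ ψ : X → Y} {x : X} (h : φ =ᶠ[𝓝 x] ψ) (F : TwoF Y) :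
    val2 (pb2 φ F) x = val2 (pb2 ψ F) x := by
  have h1 : Df φ x = Df ψ x := by
    unfold Df
    rw [h.self_of_nhds]
    refine EventuallyEq.fderiv_eq ?_
    filter_upwards [(tendsto_chart_symm x).eventually h] with z hz
    simp only [rep, hz]
  rw [val2_pb2, val2_pb2, h1, h.self_of_nhds]

omit [DecidableEq ι] in
/-- one function for all points of a finite set -/
theorem glue [T2Space X] {Q : Set X} (hQ : Q.Finite) {R : X → EuclideanSpace ℂ ι → Prop}
    (hT : ∀ x ∈ Q, ∃ s : X → EuclideanSpace ℂ ι, ∀ᶠ z in 𝓝[≠] x, Sm s z ∧ R z (s z)) :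
    ∃ s : X → EuclideanSpace ℂ ι, ∀ᶠ z in 𝓝ˢ Q, z ∉ Q → Sm s z ∧ R z (s z) := by
  classical
  choose! s hs using hT
  obtain ⟨U, hU, hd⟩ := hQ.t2_separation
  let c : X → X := fun z => if h : ∃ x ∈ Q, z ∈ U x then h.choose else z
  have hc : ∀ x ∈ Q, ∀ z ∈ U x, c z = x := by
    intro x hx z hz
    have h : ∃ x ∈ Q, z ∈ U x := ⟨x, hx, hz⟩
    have h1 : c z = h.choose := dif_pos h
    rw [h1]
    by_contra hne
    exact disjoint_left.1 (hd h.choose_spec.1 hx hne) h.choose_spec.2 hz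
  refine ⟨fun z => s (c z) z, eventually_nhdsSet_iff_forall.2 fun x hx => ?_⟩
  filter_upwards [eventually_nhdsWithin_iff.1 (hs x hx), (hU x).2.mem_nhds (hU x).1]
    with z hz hzU hzQ
  have hne : z ∈ ({x}ᶜ : Set X) := fun h => hzQ (by rw [mem_singleton_iff.1 h]; exact hx)
  refine ⟨(hz hne).1.congr ?_, ?_⟩
  · filter_upwards [(hU x).2.mem_nhds hzU] with y hy
    rw [hc x hx y hy]
  · rw [hc x hx z hzU]
    exact (hz hne).2

/-- the vector that spans the new line near the points -/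
def vec (η : X → ℝ) (s : X → EuclideanSpace ℂ ι) (z : X) : ι ⊕ Unit → ℂ :=
  Sum.elim (fun i => (1 - (η z : ℂ)) * s z i) fun _ => (η z : ℂ)

omit [DecidableEq ι] in
theorem sm_proj1 {κ : Type} [Fintype κ] {v : X → κ → ℂ} {x : X} (hv : ∀ k, Sm (fun y => v y k) x)
    (h0 : v x ≠ 0) (a b : κ) : Sm (fun y => proj1 (v y) a b) x := by
  classical
  have h1 : Sm (fun y => nsqv (v y)) x := Sm.sum fun j _ => (hv j).mul (hv j).conj
  exact (hv a).mul ((hv b).conj.div h1 (nsqv_ne h0))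

variable [IsManifold 𝓘(ℂ, FL.C2) ω X] [IsManifold 𝓘(ℂ, FL.C2) ω Y]

theorem core [T2Space X] [CompactSpace X] (p : X → Y) {Q : Set X} (hQ : Q.Finite) (L : LB Y ι)
    (hS : ∀ z ∉ Q, ∃ φ : X → Y, IsSm φ ∧ φ =ᶠ[𝓝 z] p)
    (hT : ∀ x ∈ Q, ∃ s : X → EuclideanSpace ℂ ι, ∀ᶠ z in 𝓝[≠] x,
      Sm s z ∧ s z ≠ 0 ∧ LB.act (L.P (p z)) (s z) = s z)
    {V : Set X} (hV : V ∈ 𝓝ˢ Q) :
    ∃ L' : LB X (ι ⊕ Unit), ∀ z ∉ V, val2 L'.curv z = val2 (pb2 p L.curv) z := by
  classical
  obtain ⟨s, hs⟩ := glue hQ (R := fun z v => v ≠ 0 ∧ LB.act (L.P (p z)) v = v) hT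
  obtain ⟨W, hWo, hQW, hW⟩ := mem_nhdsSet_iff_exists.1 (inter_mem hV hs)
  obtain ⟨η, K, hη, hK, hKW, h1, h0⟩ := H332.exists_cutoff hQ.isCompact hWo hQW
  have h1' : ∀ x ∈ Q, ∀ᶠ y in 𝓝 x, η y = 1 := eventually_nhdsSet_iff_forall.1 h1
  have hQK : ∀ z ∉ K, z ∉ Q := fun z hz hzQ => by
    have := (h1' z hzQ).self_of_nhds
    rw [h0 z hz] at this
    exact zero_ne_one this
  have hηs : ∀ x, Sm (fun y => (η y : ℂ)) x := fun x =>
    H332.contDiffAt_chart_of_contMDiff hη (chart_mem_atlas _ x) (mem_chart_target _ x)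
  have hne : ∀ z ∈ W, vec η s z ≠ 0 := by
    intro z hz h
    have h2 : (η z : ℂ) = 0 := congrFun h (Sum.inr ())
    have hzQ : z ∉ Q := fun hzQ => by
      rw [(h1' z hzQ).self_of_nhds] at h2
      simp at h2
    apply ((hW hz).2 hzQ).2.1
    ext i
    have h3 : (1 - (η z : ℂ)) * s z i = 0 := congrFun h (Sum.inl i)
    simpa [h2] using h3
  let P : X → Matrix (ι ⊕ Unit) (ι ⊕ Unit) ℂ := fun z =>
    if z ∈ W then proj1 (vec η s z) else ex0 (L.P (p z))
  have hPW : ∀ z ∈ W, P z = proj1 (vec η s z) := fun z hz => if_pos hz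
  have hPK : ∀ z ∉ K, P z = ex0 (L.P (p z)) := by
    intro z hz
    by_cases hzW : z ∈ W
    · obtain ⟨-, h2, h3⟩ := (hW hzW).2 (hQK z hz)
      have h4 : vec η s z = Sum.elim (fun i => s z i) fun _ : Unit => (0 : ℂ) := by
        simp [vec, h0 z hz]
      have h5 : (fun i => s z i) ≠ 0 := fun h => h2 (by ext i; exact congrFun h i)
      have h6 : (L.P (p z)).mulVec (fun i => s z i) = fun i => s z i :=
        congrArg WithLp.ofLp h3
      rw [hPW z hzW, h4, proj1_elim, ← eq_proj1 (L.herm _) (L.idem _) (L.tr _) h5 h6]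
    · exact if_neg hzW
  have hgerm : ∀ z ∉ K, ∃ (φ : X → Y) (hφ : IsSm φ), φ =ᶠ[𝓝 z] p ∧
      ∀ᶠ y in 𝓝 z, P y = ex0 ((pbL φ hφ L).P y) := by
    intro z hz
    obtain ⟨φ, hφ, hp⟩ := hS z (hQK z hz)
    refine ⟨φ, hφ, hp, ?_⟩
    filter_upwards [hp, hK.isClosed.isOpen_compl.mem_nhds hz] with y hy hyK
    rw [hPK y hyK, pbL_P, hy]
  have hsm : ∀ a b x, Sm (fun y => P y a b) x := by
    intro a b x
    by_cases hx : x ∈ K
    · have hv : ∀ k, Sm (fun y => vec η s y k) x := by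
        rintro (i | i)
        · by_cases hxQ : x ∈ Q
          · refine (Sm.const (0 : ℂ)).congr ?_
            filter_upwards [h1' x hxQ] with y hy
            simp [vec, hy]
          · exact ((Sm.const 1).sub (hηs x)).mul (sm_euclid.1 ((hW (hKW hx)).2 hxQ).1 i)
        · exact hηs x
      refine (sm_proj1 hv (hne x (hKW hx)) a b).congr ?_
      filter_upwards [hWo.mem_nhds (hKW hx)] with y hy
      rw [hPW y hy]
    · obtain ⟨φ, hφ, -, hP⟩ := hgerm x hx
      have h2 : Sm (fun y => ex0 ((pbL φ hφ L).P y) a b) x := by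
        rcases a with a | a <;> rcases b with b | b
        · exact sm_of_reg0 ((pbL φ hφ L).smooth a b) x
        · exact Sm.const 0
        · exact Sm.const 0
        · exact Sm.const 0
      refine h2.congr ?_
      filter_upwards [hP] with y hy
      rw [hy]
  have halg : ∀ z, (P z)ᴴ = P z ∧ P z * P z = P z ∧ (P z).trace = 1 := by
    intro z
    by_cases hz : z ∈ W
    · rw [hPW z hz]
      exact ⟨proj1_herm _, proj1_idem (hne z hz), proj1_trace (hne z hz)⟩
    · rw [hPK z fun h => hz (hKW h), ex0_herm, ex0_mul, ex0_trace, L.herm, L.idem, L.tr]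
      exact ⟨rfl, rfl, rfl⟩
  refine ⟨⟨P, fun a b => reg0_of_sm (hsm a b), fun z => (halg z).1, fun z => (halg z).2.1,
    fun z => (halg z).2.2⟩, fun z hz => ?_⟩
  obtain ⟨φ, hφ, hp, hP⟩ := hgerm z fun h => hz (hW (hKW h)).1
  rw [curv_germ (pbL φ hφ L) _ hP, curv_pbL, pb2_germ hp]

end Ext

/-- EXT: line bundles pull back -/
theorem ext (hS : StSq) (hT : StTriv) : StExt := by
  intro Y Z D V hV L
  obtain ⟨L', hL'⟩ := Ext.core D.p (finite_range D.q) L.L (hS Y Z D)
    (by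
      rintro _ ⟨i, rfl⟩
      exact hT Y Z D L.ι L.L i) hV
  exact ⟨⟨L.ι ⊕ Unit, L'⟩, hL'⟩

end Vale.Agent.P290Z.Cov
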