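import Vale.Agent.P290Z.Cov.Per
import Vale.Agent.P290Z.Cov.Bridge
import Vale.Agent.P290Z.Nk.SpecB
import Vale.Agent.P290Z.Nk.ToCover

/-! P290Z, part III, block COV: the assembly. -/

open Set

noncomputable section

namespace Vale.Agent.P290Z.Cov

open Vale.Agent.P290 Vale.Agent.P267 Vale.Agent.P290Z.W Vale.Agent.P290Z.Nk Vale.Agent.P290Z.Top
open Vale.Agent.P290.H342 (UData)

/-- generic Nikulin periods give an even set of eight curves -/
def StEight : Prop :=
  ∀ (Y : W.K3) (N : ℕ) (U : UData Y.X N) (κ : KConf U.G) (s : Fin N → ℂ), Prd Y U s → GenN κ s →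
    Nonempty (Nik Y 8)

/-- the first Betti number of the double cover along eight curves vanishes -/
theorem b1_cover (hM : StMax) (hC : StCech) (hV : StVan) (hT : StTrace) {Y : W.K3} {K : Nik Y 8}
    {A : Nbhd K} (D : DCover A) : B1 D.Z.X := by
  obtain ⟨B, hB⟩ := Br.exists_ld D
  have h1 : RR.isec B.L B.L = -4 := by
    have h2 := K.sq
    rw [hB]
    push_cast at h2
    linear_combination h2 / 2
  exact hM _ (hT Y _ (Br.d2 D) _ B (hC Y).1
    ((hC Y).2 _ B.L B.a B.e B.hol B.fr (hV Y _ (Br.d2 D) _ B h1)))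

theorem cov (h8 : StEight) (hN : StNbhd) (hD : StCover) (hM : StMax) (hC : StCech) (hV : StVan)
    (hT : StTrace) (hS : StSmall) (hE : StExt) (hP : StPb) (hW : StVol) : StCov := by
  intro Y N U κ v w d hs hd hw hg
  obtain ⟨K⟩ := h8 Y N U κ _ hs hg
  obtain ⟨A⟩ := hN Y 8 K
  obtain ⟨D⟩ := hD Y 8 K A (by norm_num)
  have h := b1_cover hM hC hV hT D
  exact ⟨D.Z.k3 h, toCover D h, fun N' U' =>
    per hS hE hP hW (Z := D.Z.k3 h) (Br.d2 D) (Br.jac D h) U hs hd hw N' U'⟩

end Vale.Agent.P290Z.Cov
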