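import Vale.Agent.P290Z.Cov.Spec

/-! P290Z, part III, block COV: the first Betti number vanishes with the irregularity. -/

open Set Filter
open scoped Topology Manifold ContDiff ComplexConjugate

noncomputable section

namespace Vale.Agent.P290Z.Cov

open Vale.Agent.P290 Vale.Agent.P290Z.W

namespace MaxA

/-- a holomorphic germ whose real part has a local maximum is constant -/
theorem const_of_re {F : C2 → ℂ} {c : C2} (hF : AnalyticAt ℂ F c)
    (h : ∀ᶠ z in 𝓝 c, (F z).re ≤ (F c).re) : ∀ᶠ z in 𝓝 c, F z = F c := by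
  rcases hF.eventually_constant_or_nhds_le_map_nhds with h1 | h1
  · exact h1
  · exfalso
    have h2 : ∀ᶠ w in 𝓝 (F c), w.re ≤ (F c).re := h1 (mem_map.2 h)
    have h3 : Tendsto (fun t : ℝ => F c + (t : ℂ)) (𝓝[>] 0) (𝓝 (F c)) := by
      have h4 : Continuous fun t : ℝ => F c + (t : ℂ) := by fun_prop
      have h5 := h4.tendsto 0
      rw [Complex.ofReal_zero, add_zero] at h5
      exact h5.mono_left nhdsWithin_le_nhds
    obtain ⟨t, ht1, ht2⟩ := ((h3.eventually h2).and self_mem_nhdsWithin).exists
    have ht3 : 0 < t := ht2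
    rw [Complex.add_re, Complex.ofReal_re] at ht1
    linarith

variable {Z : Type} [TopologicalSpace Z] [ChartedSpace C2 Z]

theorem tendsto_symm (x : Z) : Tendsto (chartAt C2 x).symm (𝓝 (chartAt C2 x x)) (𝓝 x) :=
  (chartAt C2 x).tendsto_symm (mem_chart_source C2 x)

theorem of_chart {P : Z → Prop} {x : Z}
    (h : ∀ᶠ z in 𝓝 (chartAt C2 x x), P ((chartAt C2 x).symm z)) : ∀ᶠ y in 𝓝 x, P y := by
  filter_upwards [((chartAt C2 x).continuousAt (mem_chart_source C2 x)).eventually h,
    chart_source_mem_nhds C2 x] with y h1 h2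
  rwa [(chartAt C2 x).left_inv h2] at h1

theorem ha_of_const {f : Z → ℂ} {x : Z} {c : ℂ} (h : ∀ᶠ y in 𝓝 x, f y = c) : HA f x :=
  analyticAt_const.congr (((tendsto_symm x).eventually h).mono fun _ hz => hz.symm)

theorem ha_cont {f : Z → ℂ} {x : Z} (h : HA f x) : ContinuousAt f x := by
  have h1 := ContinuousAt.comp (f := chartAt C2 x) h.continuousAt
    ((chartAt C2 x).continuousAt (mem_chart_source C2 x))
  refine h1.congr ?_
  filter_upwards [chart_source_mem_nhds C2 x] with y hy
  simp only [Function.comp]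
  rw [(chartAt C2 x).left_inv hy]

theorem ha_const {f : Z → ℂ} {x : Z} (hf : HA f x) (h : ∀ᶠ y in 𝓝 x, (f y).re ≤ (f x).re) :
    ∀ᶠ y in 𝓝 x, f y = f x := by
  have e : (chartAt C2 x).symm (chartAt C2 x x) = x :=
    (chartAt C2 x).left_inv (mem_chart_source C2 x)
  have h1 := const_of_re hf (by
    rw [e]
    exact (tendsto_symm x).eventually h)
  rw [e] at h1
  exact of_chart (P := fun y => f y = f x) h1

/-- holomorphic germs with a common real part on a compact connected surface are constant -/
theorem germ_const [CompactSpace Z] [ConnectedSpace Z] {r : Z → ℝ} {f : Z → Z → ℂ}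
    (hf : ∀ x, HA (f x) x) (hr : ∀ x y, r y = (f x y).re) (x : Z) :
    ∀ᶠ y in 𝓝 x, f x y = f x x := by
  have hc : Continuous r := continuous_iff_continuousAt.2 fun p => by
    have : r = fun y => (f p y).re := funext (hr p)
    rw [this]
    exact Complex.continuous_re.continuousAt.comp (ha_cont (hf p))
  obtain ⟨x₀, -, hx₀⟩ := isCompact_univ.exists_isMaxOn univ_nonempty hc.continuousOn
  have key : ∀ p, r p = r x₀ → ∀ᶠ y in 𝓝 p, f p y = f p p := fun p hp =>
    ha_const (hf p) (Eventually.of_forall fun y => by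
      rw [← hr, ← hr, hp]
      exact hx₀ (mem_univ y))
  have hS : IsClopen {p | r p = r x₀} := by
    refine ⟨isClosed_eq hc continuous_const, isOpen_iff_mem_nhds.2 fun p hp => ?_⟩
    filter_upwards [key p hp] with y hy
    have hp' : r p = r x₀ := hp
    show r y = r x₀
    rw [hr p y, hy, ← hr p p, hp']
  have hx : x ∈ {p | r p = r x₀} := by
    rw [hS.eq_univ ⟨x₀, rfl⟩]
    exact mem_univ x
  exact key x hx

end MaxA

open MaxA

/-- MAX: the first Betti number vanishes with the irregularity -/
theorem max : StMax := by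
  intro Z _ _ _ _ _ _ H
  refine ⟨fun u hu => ?_⟩
  obtain ⟨s, hs⟩ := H u fun x => (hu x).mono fun y hy => ha_of_const hy
  obtain ⟨s', hs'⟩ := H (fun p y => conj (u p y)) fun x => (hu x).mono fun y hy =>
    ha_of_const (c := conj (u x y - u y y)) (hy.mono fun z hz => by
      rw [← hz, map_sub]
      rfl)
  have h1 := germ_const (r := fun y => (s y).re - (s' y).re)
    (f := fun p y => (s y - u p y) - (s' y - conj (u p y)))
    (fun p => AnalyticAt.sub (hs p) (hs' p)) (fun p y => by simp)
  have h2 := germ_const (r := fun y => -((s y).im + (s' y).im))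
    (f := fun p y => Complex.I * ((s y - u p y) + (s' y - conj (u p y))))
    (fun p => AnalyticAt.mul analyticAt_const (AnalyticAt.add (hs p) (hs' p)))
    (fun p y => by simp)
  refine ⟨s, fun p => ?_⟩
  filter_upwards [h1 p, h2 p] with y e1 e2
  have e3 := mul_left_cancel₀ Complex.I_ne_zero e2
  linear_combination (1 / 2 : ℂ) * e1 + (1 / 2 : ℂ) * e3

end Vale.Agent.P290Z.Cov
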