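import Vale.Agent.P290Z.Cov.Sq

/-! P290Z, block COV: exact forms and the holomorphic form pull back. -/

set_option linter.unusedSectionVars false

open Set Filter Metric
open scoped Topology Manifold ContDiff

noncomputable section

namespace Vale.Agent.P290Z.Cov

open Vale.Agent.P290 Vale.Agent.P267 Vale.Agent.P290Z.W
open Vale.Agent.P267.FL (TwoF OneF)
open Vale.Agent.P290.H686
open Vale.Agent.P290Z.W.Kur (omF)

namespace PB

variable {X Y : Type*} [TopologicalSpace X] [ChartedSpace FL.C2 X] [TopologicalSpace Y]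
  [ChartedSpace FL.C2 Y] {φ ψ : X → Y} {x : X}

theorem Df_congr (h : φ =ᶠ[𝓝 x] ψ) : Df φ x = Df ψ x := by
  rw [Df, Df, h.self_of_nhds]
  refine EventuallyEq.fderiv_eq ?_
  filter_upwards [((chartAt FL.C2 x).tendsto_symm (mem_chart_source _ x)).eventually h] with w hw
  rw [rep, rep, hw]

theorem val1_pb1_congr (h : φ =ᶠ[𝓝 x] ψ) (A : OneF Y) :
    val1 (pb1 φ A) x = val1 (pb1 ψ A) x := by
  rw [val1_pb1, val1_pb1, Df_congr h, h.self_of_nhds]

theorem val2_pb2_congr (h : φ =ᶠ[𝓝 x] ψ) (F : TwoF Y) :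
    val2 (pb2 φ F) x = val2 (pb2 ψ F) x := by
  rw [val2_pb2, val2_pb2, Df_congr h, h.self_of_nhds]

/-- a one-form times a function -/
def cut (χ : X → ℝ) (A : OneF X) : OneF X := ⟨fun x => χ x • A.f10 x, fun x => χ x • A.f01 x⟩

theorem val1_cut (χ : X → ℝ) (A : OneF X) (x : X) : val1 (cut χ A) x = χ x • val1 A x := by
  ext v
  simp only [val1, cut, ev1_apply, smul_apply, Fin.sum_univ_two, Pi.smul_apply,
    Complex.real_smul]
  ring

variable [IsManifold 𝓘(ℂ, FL.C2) ω X]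

theorem E1_ev {A B : OneF X} {c : X → ℝ} {e : FL.Ch X} (he : e ∈ atlas FL.C2 X)
    (hx : x ∈ e.source) (h : ∀ᶠ y in 𝓝 x, val1 A y = c y • val1 B y) :
    E1 e A =ᶠ[𝓝 (e x)] fun w => c (e.symm w) • E1 e B w := by
  filter_upwards [(e.tendsto_symm hx).eventually h, e.open_target.mem_nhds (e.map_source hx)]
    with w h1 h2
  have a := E1_apply he A (e.map_target h2)
  have b := E1_apply he B (e.map_target h2)
  rw [e.right_inv h2] at a b
  rw [a, b, h1, ContinuousLinearMap.smul_comp]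

theorem val2_d_congr {A B : OneF X} (hA : A.Smooth) (hB : B.Smooth)
    (h : ∀ᶠ y in 𝓝 x, val1 A y = val1 B y) : val2 A.d x = val2 B.d x := by
  have e := E1_ev (c := fun _ => 1) (chart_mem_atlas FL.C2 x) (mem_chart_source _ x)
    (h.mono fun y hy => hy.trans (one_smul ℝ _).symm)
  simp only [one_smul] at e
  ext v w
  rw [val2_d hA, val2_d hB, alt1, alt1, e.fderiv_eq]

theorem cut_smooth {χ : X → ℝ} (hχ : ContMDiff 𝓘(ℝ, FL.C2) 𝓘(ℝ) ∞ χ) {A : OneF X}
    (h : ∀ x, (∀ᶠ y in 𝓝 x, χ y = 0) ∨ ∃ B : OneF X, B.Smooth ∧ ∀ᶠ y in 𝓝 x, val1 A y = val1 B y) :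
    (cut χ A).Smooth := by
  have := FL.isManifold_real' (X := X) ∞
  refine smooth1_iff.2 fun e he w hw => ?_
  obtain ⟨x, hx, rfl⟩ : ∃ x ∈ e.source, e x = w := ⟨e.symm w, e.map_target hw, e.right_inv hw⟩
  rcases h x with h | ⟨B, hB, h⟩
  · refine (contDiffAt_const (c := 0)).congr_of_eventuallyEq
      ((E1_ev (c := fun _ => 0) (B := A) he hx (h.mono fun y hy => by rw [val1_cut, hy])).trans
        (Eventually.of_forall fun w => zero_smul ℝ (H686.E1 e A w)))
  · refine ContDiffAt.congr_of_eventuallyEq ?_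
      (E1_ev (c := χ) (B := B) he hx (h.mono fun y hy => by rw [val1_cut, hy]))
    exact ((hχ _).comp (e x) (contMDiffAt_symm_of_mem_maximalAtlas (I := 𝓘(ℝ, FL.C2)) (n := ∞)
      (IsManifold.subset_maximalAtlas he) hw)).contDiffAt.smul (smooth1_iff.1 hB e he _ hw)

theorem Df_apply {Y Z : W.K3} (D : D2 Y Z.X) {z : Z.X} (hz : z ∉ range D.q) (v : FL.C2) :
    Df D.p z v = P290.H445.φ (fderiv ℂ
      (fun w => chartAt C2 (D.p z) (D.p ((chartAt C2 z).symm w))) (chartAt C2 z z)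
        (P290.H445.φ.symm v)) := by
  have h1 := (SQ.p_diff D hz).self_of_nhds.hasFDerivAt
  rw [← P290.H445.φ.symm_apply_apply (chartAt C2 z z)] at h1
  have h2 := (P290.H445.φ.hasFDerivAt.comp _
    (h1.comp _ P290.H445.φ.symm.hasFDerivAt)).restrictScalars ℝ
  rw [P290.H445.φ.symm_apply_apply] at h2
  exact congrArg (fun L => L v) h2.fderiv

end PB

open PB

theorem pb (hS : StSq) : StPb := by
  intro Y Z D
  have := FL.isManifold_real' (X := Z.X) ∞
  refine ⟨fun V hV A hA => ?_, fun hJ z hz => ?_⟩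
  · have hQ := subset_interior_iff_mem_nhdsSet.2 hV
    obtain ⟨χ, h0, h1, -⟩ := exists_contMDiffMap_zero_one_nhds_of_isClosed (n := ⊤) 𝓘(ℝ, FL.C2)
      (finite_range D.q).isClosed isOpen_interior.isClosed_compl
      (disjoint_compl_right_iff_subset.2 hQ)
    have loc : ∀ z ∉ range D.q, ∃ φ : Z.X → Y.X, IsSm φ ∧ φ =ᶠ[𝓝 z] D.p ∧
        ∀ᶠ y in 𝓝 z, val1 (pb1 D.p A) y = val1 (pb1 φ A) y := fun z hz => by
      obtain ⟨φ, a, b⟩ := hS Y Z D z hz
      exact ⟨φ, a, b, b.eventuallyEq_nhds.mono fun y hy => (val1_pb1_congr hy A).symm⟩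
    have sm : (cut χ (pb1 D.p A)).Smooth := cut_smooth χ.contMDiff fun z => by
      by_cases hz : z ∈ range D.q
      · exact Or.inl (h0.filter_mono (nhds_le_nhdsSet hz))
      · obtain ⟨φ, a, -, b⟩ := loc z hz
        exact Or.inr ⟨_, pb1_smooth a hA, b⟩
    refine ⟨_, sm, fun z hz => ?_⟩
    have hz' : z ∈ (interior V)ᶜ := fun h => hz (interior_subset h)
    obtain ⟨φ, a, b, c⟩ := loc z fun h => hz' (hQ h)
    rw [← val2_pb2_congr b, pb1_d a hA]
    refine val2_d_congr sm (pb1_smooth a hA) ?_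
    filter_upwards [c, h1.filter_mono (nhds_le_nhdsSet hz')] with y e1 e2
    rw [val1_cut, e1, e2, one_smul]
  · ext v w
    have h := area_map (fderiv ℂ (fun w => chartAt C2 (D.p z) (D.p ((chartAt C2 z).symm w)))
      (chartAt C2 z z)) (P290.H445.φ.symm v) (P290.H445.φ.symm w)
    rw [val2_pb2_apply, Df_apply D hz, Df_apply D hz]
    simp only [val2, omF, ev2_apply, ← hJ z hz]
    simp only [area] at h
    simp only [P290.H445.φ_apply, P290.H445.φ_symm_apply, Matrix.cons_val_zero, Matrix.cons_val_one,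
      Pi.zero_apply, Matrix.zero_apply, zero_mul, Finset.sum_const_zero, add_zero] at h ⊢
    rw [h, mul_assoc]

end Vale.Agent.P290Z.Cov
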