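import Vale.Agent.P290Z.Cov.Spec
import Vale.Agent.P290Z.Top.Rem
import Vale.Agent.P290Z.Lat.Basic
import Vale.Agent.P290Z.K.Kur.A

/-! P290Z, part III, block COV: the period of the double cover. -/

open Set Filter
open scoped Topology Manifold ContDiff Matrix

noncomputable section

namespace Vale.Agent.P290Z.Cov

open Vale.Agent.P290 Vale.Agent.P267 Vale.Agent.P290Z.W Vale.Agent.P290Z.Top
open Vale.Agent.P267.FL (TwoF OneF LB)
open Vale.Agent.P267.BlockC (pair ExactTwo ALB)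
open Vale.Agent.P290.H686 (val2 pb2)
open Vale.Agent.P290.H342 Vale.Agent.P290.H726 Vale.Agent.P290Z.Lat
open Vale.Agent.P290Z.W.Kur (omF)
open Vale.Agent.P267.H332 (HC)

namespace PerX

/-- the value of a two-form at a point as a linear map -/
def vL {Y : W.K3} (z : Y.X) (v w : FL.C2) : TwoF Y.X →ₗ[ℂ] ℂ where
  toFun F := val2 F z v w
  map_add' F G := H686.val2_add' F G z v w
  map_smul' c F := H686.val2_smul' c F z v w

theorem comb_new {Z : W.K3} {N N' : ℕ} (U : UData Z.X N') {h : Matrix (Fin N') (Fin N) ℤ}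
    {E : Fin N → ALB Z.X} (hE : ∀ i, U.HasCl (E i).L.curv fun j => h j i) (t : Fin N → ℂ) :
    ExactTwo (∑ i, t i • (E i).L.curv - U.combC (act h t)) := by
  have h1 : U.combC (act h t) = ∑ i, t i • U.comb fun j => h j i := by
    simp only [UData.comb, UData.combC, act, Finset.sum_smul, Finset.smul_sum, smul_smul]
    rw [Finset.sum_comm]
    exact Finset.sum_congr rfl fun i _ => Finset.sum_congr rfl fun j _ => by rw [mul_comm]
  rw [h1, ← Finset.sum_sub_distrib]
  refine HR.exact_sum _ fun i => ?_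
  rw [← smul_sub]
  exact exact_smul _ (hE i)

/-- the period of the cover is the image of the period under an integral matrix -/
theorem exists_mat (hS : StSmall) (hE : StExt) (hP : StPb) {Y Z : W.K3} (D : D2 Y Z.X)
    (hJ : Jac D) {N N' : ℕ} (U : UData Y.X N) (U' : UData Z.X N') {s : Fin N → ℂ}
    (hs : Prd Y U s) : ∃ M : Matrix (Fin N') (Fin N) ℤ, Prd Z U' (act M s) := by
  obtain ⟨V, hV, hsm⟩ := hS Z N' U' (range D.q) (finite_range _)
  choose L' hL' using fun k => hE Y Z D V hV (U.E k)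
  obtain ⟨A, hA, hAd⟩ := hs
  obtain ⟨A', hA', hA'd⟩ := (hP Y Z D).1 V hV A hA
  have hm : omF Z - ∑ k, s k • (L' k).L.curv - A'.d ∈ HC Z.X := by
    refine Submodule.sub_mem _ (Submodule.sub_mem _ (HR.omF_mem Z)
      (Submodule.sum_mem _ fun k _ => Submodule.smul_mem _ _ ?_)) (Kur.KA.exact_mem ⟨A', hA', rfl⟩)
    exact mem_HC_iff.2 ⟨(HR.lbF Z.X).smooth _, (HR.lbF Z.X).closed _⟩
  have hex : ExactTwo (omF Z - ∑ k, s k • (L' k).L.curv - A'.d) := by
    refine hsm _ hm.1 hm.2.1 fun z hz => ?_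
    have hzq : z ∉ range D.q := fun h => hz (subset_of_mem_nhdsSet hV h)
    ext v w
    have h1 : vL z v w (omF Z) = vL z v w (pb2 D.p (omF Y)) := by
      change val2 _ z v w = val2 _ z v w
      rw [(hP Y Z D).2 hJ z hzq]
    have h2 : ∀ k, vL z v w (L' k).L.curv = vL z v w (pb2 D.p (U.E k).L.curv) := fun k => by
      change val2 _ z v w = val2 _ z v w
      rw [hL' k z hz]
    have h3 : vL z v w A'.d = vL z v w (pb2 D.p A.d) := by
      change val2 _ z v w = val2 _ z v w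
      rw [hA'd z hz]
    change vL z v w _ = 0
    rw [map_sub, map_sub, map_sum, h1, h3, hAd, H686.pb2_sub, map_sub, UData.combC,
      H686.pb2_sum_smul, map_sum]
    simp only [map_smul, h2]
    ring
  refine ⟨Matrix.of fun j k => U'.c1 (L' k) j, ?_⟩
  have h4 : ExactTwo (omF Z - ∑ k, s k • (L' k).L.curv) := by
    have := exact_add hex ⟨A', hA', rfl⟩
    rwa [sub_add_cancel] at this
  exact HR.exact_trans h4 (comb_new U' (fun k => U'.c1_spec (L' k)) s)

theorem exists_row {N : ℕ} {G : Matrix (Fin N) (Fin N) ℤ} (hG : IsUnit G.det) (m : Fin N → ℤ) :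
    ∃ y : Fin N → ℤ, ∀ w : Fin N → ℝ, bil G w (cs ℝ y) = ∑ k, (m k : ℝ) * w k := by
  refine ⟨act G⁻¹ m, fun w => ?_⟩
  rw [bil_eq, act_cs, ← act_mul, Matrix.mul_nonsing_inv _ hG, act_one]
  simp only [dotProduct, cs, mul_comm]

end PerX

open PerX

/-- the period of the cover -/
theorem per (hS : StSmall) (hE : StExt) (hP : StPb) (hV : StVol) {Y Z : W.K3} (D : D2 Y Z.X)
    (hJ : Jac D) {N : ℕ} (U : UData Y.X N) {v : Fin N → ℤ} {w : Fin N → ℝ} {d : ℤ}
    (hs : Prd Y U (pt v w)) (hd : bil U.G v v = 2 * d) (hw : Extra U.G w) (N' : ℕ)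
    (U' : UData Z.X N') : ∃ (t : Fin N' → ℤ) (w' : Fin N' → ℝ),
      Prd Z U' (pt t w') ∧ bil U'.G t t = 4 * d ∧ Irr w' := by
  obtain ⟨M, hM⟩ := exists_mat hS hE hP D hJ U U' hs
  rw [act_pt] at hM
  have p1 := (isPer_pt_iff U.G_symm v w).1 ((hr Y N U).2 _ hs)
  have p2 := (isPer_pt_iff U'.G_symm _ _).1 ((hr Z N' U').2 _ hM)
  have h1 := hV Y Z D hJ
  rw [HR.pair_coord U' (HR.omF_mem Z) hM (HR.class_bar U' hM),
    HR.pair_coord U (HR.omF_mem Y) hs (HR.class_bar U hs), bil_neg_right, bil_neg_right,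
    bil_vcj_eq U.G_symm, bil_vcj_eq U'.G_symm, vre_pt, vre_pt, vim_pt, vim_pt, bil_cs, bil_cs,
    ← p1.1, ← p2.1, hd] at h1
  have h2 : bil U'.G (act M v) (act M v) = 4 * d := by
    have h3 : ((bil U'.G (act M v) (act M v) : ℤ) : ℂ) = 4 * d := by
      apply mul_left_cancel₀ HR.pi_ne
      push_cast at h1
      linear_combination (-1 / 2 : ℂ) * h1
    exact_mod_cast h3
  refine ⟨act M v, act M w, hM, h2, fun r x hx => ?_⟩
  by_contra hr0
  have hd0 : (0 : ℝ) < d := by
    have := p1.2.2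
    rw [hd] at this
    exact_mod_cast (by omega : 0 < d)
  have h4 : bil U'.G (act M w) (act M w) = 4 * d := by
    rw [← p2.1, h2]
    push_cast
    ring
  have h5 : r ^ 2 * (4 * d) = (bil U'.G x x : ℤ) := by
    rw [← bil_cs, ← hx, bil_smul_left, bil_smul_right, h4]
    ring
  have h6 : act M w = 0 := by
    funext j
    obtain ⟨y, hy⟩ := exists_row U.unit (fun k => M j k)
    have h7 : bil U.G w (cs ℝ y) = act M w j := hy w
    have h8 : r * act M w j = x j := congrFun hx j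
    have hx0 : ((bil U'.G x x : ℤ) : ℝ) ≠ 0 := by
      rw [← h5]
      positivity
    rw [← h7]
    refine hw y ((x j : ℚ) ^ 2 * (4 * d) / (bil U'.G x x : ℤ)) ?_
    push_cast
    rw [h7, eq_div_iff hx0, ← h5, ← h8]
    ring
  rw [h6, bil_zero_left] at h4
  linarith

end Vale.Agent.P290Z.Cov
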