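import Vale.Agent.P290Z.Cov.Spec
import Vale.Agent.P267.H995.Poin
import Vale.Agent.P267.H332.Pair.IntAx

/-! P290Z, part III, block COV: closed forms with support near a finite set are exact. -/

open Set Filter Metric
open scoped Topology Manifold ContDiff

noncomputable section

namespace Vale.Agent.P290Z.Cov

open Vale.Agent.P290 Vale.Agent.P267 Vale.Agent.P290Z.W
open Vale.Agent.P267.FL (TwoF OneF)
open Vale.Agent.P267.BlockC (pair ExactTwo)
open Vale.Agent.P267.H995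
open Vale.Agent.P290.H342 (UData LBFacts)

namespace SmallA

variable {X : Type} [TopologicalSpace X] [ChartedSpace FL.C2 X] [IsManifold 𝓘(ℂ, FL.C2) ω X]

theorem lbF : LBFacts X where
  smooth L := L.L.curv_smooth
  closed L := L.L.curv_closed
  tensor L L' := by
    apply TwoF.ext
    · funext x; exact L.L.F20_tensor L'.L x
    · funext x; ext i j; exact L.L.F11_tensor L'.L x i j
    · funext x; exact L.L.F02_tensor L'.L x
  dual L := by
    apply TwoF.ext
    · funext x; exact L.L.F20_dual x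
    · funext x; ext i j; exact L.L.F11_dual x i j
    · funext x; exact L.L.F02_dual x

variable [T2Space X]

/-- convex neighbourhoods and cut off functions -/
theorem exists_cut {c : X} {O : Set X} (hO : O ∈ 𝓝 c) : ∃ (W : Set X) (χ : X → ℂ),
    IsOpen W ∧ W ⊆ O ∧ ChConv W ∧ (∀ x, SmAt χ x) ∧ (∀ x ∉ W, ∀ᶠ y in 𝓝 x, χ y = 0) ∧
      ∀ᶠ y in 𝓝 c, y ∈ W ∧ χ y = 1 := by
  have := FL.isManifold_real' (X := X) ∞
  set e := chartAt FL.C2 c with he
  have hc : c ∈ e.source := mem_chart_source _ c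
  obtain ⟨r, hr, hr'⟩ := Metric.mem_nhds_iff.1 (inter_mem (e.open_target.mem_nhds (e.map_source hc))
    (e.tendsto_symm hc hO))
  have hW : IsOpen (e.source ∩ e ⁻¹' ball (e c) r) := e.isOpen_inter_preimage isOpen_ball
  have hcW : e.source ∩ e ⁻¹' ball (e c) r ∈ 𝓝 c := hW.mem_nhds ⟨hc, mem_ball_self hr⟩
  obtain ⟨f, -, hf⟩ := (SmoothBumpFunction.nhds_basis_tsupport (I := 𝓘(ℝ, FL.C2)) c).mem_iff.1 hcW
  refine ⟨_, fun y => (f y : ℂ), hW, fun y hy => ?_, ⟨e, chart_mem_atlas _ c, inter_subset_left, ?_⟩,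
    fun x => ?_, fun x hx => ?_, ?_⟩
  · have h1 := (hr' hy.2).2
    rwa [mem_preimage, e.left_inv hy.1] at h1
  · have h1 : e '' (e.source ∩ e ⁻¹' ball (e c) r) = ball (e c) r := by
      refine Subset.antisymm ?_ fun z hz => ⟨e.symm z, ⟨e.map_target (hr' hz).1, ?_⟩, ?_⟩
      · rintro _ ⟨y, hy, rfl⟩
        exact hy.2
      · rwa [mem_preimage, e.right_inv (hr' hz).1]
      · exact e.right_inv (hr' hz).1
    rw [h1]
    exact convex_ball _ _
  · have h1 : ContMDiffAt 𝓘(ℝ, FL.C2) 𝓘(ℝ, ℝ) ∞ (fun z => f ((chartAt FL.C2 x).symm z))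
        (chartAt FL.C2 x x) :=
      ContMDiffAt.comp (I' := 𝓘(ℝ, FL.C2)) (g := f) _ (f.contMDiff _)
        (contMDiffOn_chart_symm.contMDiffAt (chart_target_mem_nhds _ x))
    exact Complex.ofRealCLM.contDiff.contDiffAt.comp _ (contMDiffAt_iff_contDiffAt.1 h1)
  · filter_upwards [notMem_tsupport_iff_eventuallyEq.1 fun h => hx (hf h)] with y hy
    simp [hy]
  · filter_upwards [hcW, f.eventuallyEq_one] with y h1 h2
    exact ⟨h1, by simp [h2]⟩

/-- closed forms are exact near a finite set -/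
theorem exists_near {Q : Set X} (hQ : Q.Finite) : ∃ V ∈ 𝓝ˢ Q, ∀ G : TwoF X, G.Smooth → G.Closed →
    ∃ A : OneF X, A.Smooth ∧ ∀ z ∈ V, ∀ q q', pr A.d z q q' = pr G z q q' := by
  obtain ⟨O, hO, hd⟩ := hQ.t2_separation
  choose W χ h1 h2 h3 h4 h5 h6 using fun c => exists_cut ((hO c).2.mem_nhds (hO c).1)
  refine ⟨{z | ∃ c ∈ Q, ∀ᶠ y in 𝓝 z, y ∈ W c ∧ χ c y = 1}, mem_nhdsSet_iff_forall.2 fun c hc =>
    (h6 c).eventually_nhds.mono fun z hz => ⟨c, hc, hz⟩, fun G hG hG' => ?_⟩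
  choose γ g1 g2 using fun c => exists_prim2 hG hG' (h1 c) (h3 c)
  refine ⟨∑ c ∈ hQ.toFinset, fmul (χ c) (γ c), OneF_Smooth_of_at fun x => OAt.sum fun c _ => ?_, ?_⟩
  · by_cases hx : x ∈ W c
    · exact OAt.fmul (h4 c x) (g1 c x hx)
    · refine OAt.zero.congr ((h5 c x hx).mono fun y hy q => ?_)
      rw [vv_fmul, hy, zero_mul, vv_zero]
  · rintro z ⟨c, hc, hz⟩ q q'
    rw [← g2 c z hz.self_of_nhds.1]
    refine pr_d_congr (hz.mono fun y hy q => ?_) q q'
    rw [vv_sum, Finset.sum_eq_single c, vv_fmul, hy.2, one_mul]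
    · intro c' hc' hne
      have h7 : y ∉ W c' := fun h => Set.disjoint_left.1
        (hd (hQ.mem_toFinset.1 hc') hc hne) (h2 c' h) (h2 c hy.1)
      rw [vv_fmul, (h5 c' y h7).self_of_nhds, zero_mul]
    · exact fun h => absurd (hQ.mem_toFinset.2 hc) h

end SmallA

open SmallA

/-- SMALL: closed forms with support near a finite set are exact -/
theorem small : StSmall := by
  intro Z N U Q hQ
  obtain ⟨V, hV, hV'⟩ := exists_near hQ
  refine ⟨V, hV, fun F hF hF' h0 => ?_⟩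
  have hI : H332.IntAx Z.X := H332.intAx
  have key : ∀ G : TwoF Z.X, G.Smooth → G.Closed → pair F G = 0 := by
    intro G hG hG'
    obtain ⟨A, hA, hA'⟩ := hV' G hG hG'
    have h1 : F.wedge G = F.wedge A.d := by
      funext z
      by_cases hz : z ∈ V
      · have e1 : A.d.f20 z = G.f20 z := by simpa [pr] using hA' z hz (Sum.inl 0) (Sum.inl 1)
        have e2 : ∀ i j, A.d.f11 z i j = G.f11 z i j := fun i j => hA' z hz (Sum.inl i) (Sum.inr j)
        have e3 : A.d.f02 z = G.f02 z := by simpa [pr] using hA' z hz (Sum.inr 0) (Sum.inr 1)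
        simp only [TwoF.wedge, e1, e2, e3]
      · have e0 : H686.ev2 (F.f20 z) (F.f11 z) (F.f02 z) = H686.ev2 0 0 0 := by
          refine (h0 z hz).trans ?_
          ext v w
          simp [H686.ev2_apply]
        obtain ⟨e1, e2, e3⟩ := H686.ev2_inj e0
        simp [TwoF.wedge, e1, e2, e3]
    rw [pair, h1, ← pair, H342.pair_comm]
    exact H342.pair_exact hI ⟨A, hA, rfl⟩ (H342.mem_HC_iff.2 ⟨hF, hF'⟩)
  obtain ⟨t, ht, -⟩ := U.span F hF hF'
  have ht' : ExactTwo (F - U.combC t) := ht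
  have h2 : ∀ s : Fin N → ℂ, ∑ i, ∑ j, t i * (U.G i j : ℂ) * s j = 0 := by
    intro s
    have hs := U.combC_mem lbF s
    have hT := U.combC_mem lbF t
    have h3 := H342.pair_exact hI ht' hs
    have h4 : (F - U.combC t).Smooth :=
      ((H332.HC Z.X).sub_mem (H342.mem_HC_iff.2 ⟨hF, hF'⟩) hT).1
    have h5 := H342.pair_add_left hI h4 hT.1 hs.1
    rw [sub_add_cancel, key _ hs.1 hs.2.1, h3, zero_add, U.pair_combC lbF hI] at h5
    have hpi : (Real.pi : ℂ) ≠ 0 := by exact_mod_cast Real.pi_ne_zero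
    exact (mul_eq_zero.1 h5.symm).resolve_left (by simp [hpi])
  have h3 : Matrix.vecMul t (U.G.map (Int.castRingHom ℂ)) = 0 := by
    funext j
    have h4 := h2 (Pi.single j 1)
    simpa [Matrix.vecMul, dotProduct, Pi.single_apply] using h4
  have h4 : (U.G.map (Int.castRingHom ℂ)).det ≠ 0 := by
    rw [← RingHom.mapMatrix_apply, ← RingHom.map_det]
    exact (U.unit.map _).ne_zero
  have h5 : t = 0 := Matrix.eq_zero_of_vecMul_eq_zero h4 h3
  rw [h5] at ht'
  simpa [UData.combC] using ht'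

end Vale.Agent.P290Z.Cov
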