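import Vale.Agent.P290Z.Spec3
import Vale.Agent.P290Z.Nk.DefsA
import Vale.Agent.P267.H451.Frame
import Vale.Agent.P267.H221.Out

/-! P290Z, part III, block COV: the double cover of a surface along an even set of eight curves.
Definitions and the statements of the steps. Paper proof: `notes/P290_helper97_COV.md`. -/

open Set Filter
open scoped Topology Manifold ContDiff

noncomputable section

namespace Vale.Agent.P290Z.Cov

open Vale.Agent.P290 Vale.Agent.P267 Vale.Agent.P290Z.W Vale.Agent.P290Z.Nk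
open Vale.Agent.P267.FL (TwoF OneF LB)
open Vale.Agent.P267.BlockC (pair ExactTwo ALB)
open Vale.Agent.P290.H686 (val2 pb2)
open Vale.Agent.P290.H342 (UData)
open Vale.Agent.P290Z.W.Kur (omF)

section cech

variable {X : Type} [TopologicalSpace X] [ChartedSpace C2 X]
variable {E : Type} [AddCommGroup E] [Module ℂ E]

/-- `f` is holomorphic near `x` -/
def HA (f : X → ℂ) (x : X) : Prop :=
  AnalyticAt ℂ (fun z => f ((chartAt C2 x).symm z)) (chartAt C2 x x)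

/-- near `x` the function `t` is a holomorphic multiple of the frame `e x` -/
def HS (e : X → X → E) (t : X → E) (x : X) : Prop :=
  ∃ φ : X → ℂ, HA φ x ∧ ∀ᶠ y in 𝓝 x, t y = φ y • e x y

/-- the first cohomology with coefficients in the line bundle with the frames `e` vanishes -/
def H1 (e : X → X → E) : Prop :=
  ∀ u : X → X → E, (∀ x, ∀ᶠ y in 𝓝 x, HS e (u x - u y) y) → ∃ s : X → E, ∀ x, HS e (s - u x) x

variable (X) in
/-- the first cohomology of the structure sheaf vanishes -/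
def H1O : Prop :=
  ∀ u : X → X → ℂ, (∀ x, ∀ᶠ y in 𝓝 x, HA (u x - u y) y) → ∃ s : X → ℂ, ∀ x, HA (s - u x) x

end cech

/-- A double cover `p` of `Y` minus the curves `C i` by `Z` minus the points `q i`, with the
covering involution `j` and in standard form near the points. -/
structure D2 (Y : W.K3) (Z : Type) [TopologicalSpace Z] [ChartedSpace C2 Z] where
  n : ℕ
  q : Fin n → Z
  p : Z → Y.X
  j : Z → Z
  C : Fin n → RC Y.X
  ε : ℝ
  ν : Fin n → ℂ → C2 → Y.X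
  pos : 0 < ε
  std : ∀ i, IsStd (C i) ε (ν i)
  near : ∀ i, ∀ᶠ z in 𝓝[≠] (q i), p z = ν i 1 (chartAt C2 (q i) z - chartAt C2 (q i) (q i))
  et : ∀ z ∉ range q, All.Etale (fun v => p ((chartAt C2 z).symm v)) (chartAt C2 z z)
  jc : ∀ z ∉ range q, ContinuousAt j z
  jq : ∀ z ∉ range q, j z ∉ range q ∧ j z ≠ z ∧ p (j z) = p z
  fib : ∀ z ∉ range q, ∀ z' ∉ range q, p z' = p z → z' = z ∨ z' = j z
  cov : ∀ y, (∃ z ∉ range q, p z = y) ∨ ∃ i, y ∈ (C i).supp

/-- the line bundle of the cover and the tautological section -/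
structure LD {Y : W.K3} {Z : Type} [TopologicalSpace Z] [ChartedSpace C2 Z] (D : D2 Y Z)
    (ι : Type) [Fintype ι] [DecidableEq ι] where
  L : LB Y.X ι
  a : Y.X → Fin 2 → ℂ
  hol : L.IsHol a
  e : Y.X → Y.X → EuclideanSpace ℂ ι
  fr : ∀ x, ∀ᶠ y in 𝓝 x, H451.FrameAt L a (e x) y
  w : Z → EuclideanSpace ℂ ι
  odd : ∀ z ∉ range D.q, w (D.j z) = -w z
  wh : ∀ z ∉ range D.q, ∃ φ : Z → ℂ, HA φ z ∧ φ z ≠ 0 ∧
    ∀ᶠ z' in 𝓝 z, w z' = φ z' • e (D.p z) (D.p z')

/-- the cover preserves the two-forms -/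
def Jac {Y Z : W.K3} (D : D2 Y Z.X) : Prop :=
  ∀ z ∉ range D.q, W.H445.Om Y (D.p z) * (fderiv ℂ
    (fun w => chartAt C2 (D.p z) (D.p ((chartAt C2 z).symm w))) (chartAt C2 z z)).det =
      W.H445.Om Z z

/-! ### the first Betti number -/

/-- MAX: the first Betti number vanishes with the irregularity -/
def StMax : Prop :=
  ∀ (Z : Type) [TopologicalSpace Z] [ChartedSpace C2 Z] [IsManifold 𝓘(ℂ, C2) ω Z] [T2Space Z]
    [CompactSpace Z] [ConnectedSpace Z], H1O Z → B1 Z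

/-- CECH: from Dolbeault cohomology to families of germs -/
def StCech : Prop :=
  ∀ Y : W.K3, H1O Y.X ∧ ∀ (ι : Type) [Fintype ι] [DecidableEq ι] (L : LB Y.X ι)
    (a : Y.X → Fin 2 → ℂ) (e : Y.X → Y.X → EuclideanSpace ℂ ι), L.IsHol a →
    (∀ x, ∀ᶠ y in 𝓝 x, H451.FrameAt L a (e x) y) → RR.Z1 L a 0 ≤ RR.B1 L a 0 → H1 e

/-- VAN: the first cohomology of the bundle of the cover vanishes -/
def StVan : Prop :=
  ∀ (Y : W.K3) (Z : Type) [TopologicalSpace Z] [ChartedSpace C2 Z] [IsManifold 𝓘(ℂ, C2) ω Z]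
    [T2Space Z] [CompactSpace Z] [ConnectedSpace Z] (D : D2 Y Z) (ι : Type) [Fintype ι]
    [DecidableEq ι] (B : LD D ι), RR.isec B.L B.L = -4 → RR.Z1 B.L B.a 0 ≤ RR.B1 B.L B.a 0

/-- TRACE: the irregularity of the cover -/
def StTrace : Prop :=
  ∀ (Y : W.K3) (Z : Type) [TopologicalSpace Z] [ChartedSpace C2 Z] [IsManifold 𝓘(ℂ, C2) ω Z]
    [T2Space Z] [CompactSpace Z] (D : D2 Y Z) (ι : Type) [Fintype ι] [DecidableEq ι]
    (B : LD D ι), H1O Y.X → H1 B.e → H1O Z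

/-! ### the period -/

/-- SMALL: closed forms with support near a finite set are exact -/
def StSmall : Prop :=
  ∀ (Z : W.K3) (N : ℕ) (_ : UData Z.X N) (Q : Set Z.X), Q.Finite → ∃ V ∈ 𝓝ˢ Q,
    ∀ F : TwoF Z.X, F.Smooth → F.Closed → (∀ z ∉ V, val2 F z = 0) → ExactTwo F

/-- TRIV: pull backs of line bundles are trivial near the points -/
def StTriv : Prop :=
  ∀ (Y Z : W.K3) (D : D2 Y Z.X) (ι : Type) [Fintype ι] [DecidableEq ι] (L : LB Y.X ι)
    (i : Fin D.n), ∃ s : Z.X → EuclideanSpace ℂ ι, ∀ᶠ z in 𝓝[≠] (D.q i),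
      H451.Sm s z ∧ s z ≠ 0 ∧ LB.act (L.P (D.p z)) (s z) = s z

/-- SQ: away from the points the cover agrees locally with globally smooth maps -/
def StSq : Prop :=
  ∀ (Y Z : W.K3) (D : D2 Y Z.X), ∀ z ∉ range D.q,
    ∃ φ : Z.X → Y.X, H686.IsSm φ ∧ φ =ᶠ[𝓝 z] D.p

/-- EXT: line bundles pull back -/
def StExt : Prop :=
  ∀ (Y Z : W.K3) (D : D2 Y Z.X), ∀ V ∈ 𝓝ˢ (range D.q), ∀ L : ALB Y.X, ∃ L' : ALB Z.X,
    ∀ z ∉ V, val2 L'.L.curv z = val2 (pb2 D.p L.L.curv) z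

/-- PB: exact forms and the holomorphic form pull back -/
def StPb : Prop :=
  ∀ (Y Z : W.K3) (D : D2 Y Z.X),
    (∀ V ∈ 𝓝ˢ (range D.q), ∀ A : OneF Y.X, A.Smooth → ∃ A' : OneF Z.X, A'.Smooth ∧
      ∀ z ∉ V, val2 A'.d z = val2 (pb2 D.p A.d) z) ∧
    (Jac D → ∀ z ∉ range D.q, val2 (omF Z) z = val2 (pb2 D.p (omF Y)) z)

/-- VOL: the cover has degree two -/
def StVol : Prop :=
  ∀ (Y Z : W.K3) (D : D2 Y Z.X), Jac D →
    pair (omF Z) (omF Z).bar = 2 * pair (omF Y) (omF Y).bar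

/-- CVR: curves and discs -/
def StCvr : Prop :=
  ∀ (Y Z : W.K3) (D : D2 Y Z.X), Jac D → Nonempty (Top.Cover Z Y)

end Vale.Agent.P290Z.Cov
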