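import Vale.Agent.P290Z.Cov.Spec
import Vale.Agent.P290Z.Inv.Loc
import Vale.Agent.P267.H399.Calc3

/-! P290Z, block COV: away from the points the cover agrees locally with globally smooth maps. -/

set_option linter.unusedSectionVars false

open Set Filter Metric
open scoped Topology Manifold ContDiff

noncomputable section

namespace Vale.Agent.P290Z.Cov

open Vale.Agent.P290 Vale.Agent.P267 Vale.Agent.P290Z.W

namespace SQ

theorem isSm_of {X Y : Type*} [TopologicalSpace X] [ChartedSpace FL.C2 X] [TopologicalSpace Y]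
    [ChartedSpace FL.C2 Y] [IsManifold 𝓘(ℂ, FL.C2) ω X] [IsManifold 𝓘(ℂ, FL.C2) ω Y] {φ : X → Y}
    (h : ContMDiff 𝓘(ℝ, FL.C2) 𝓘(ℝ, FL.C2) ∞ φ) : H686.IsSm φ := by
  have := FL.isManifold_real' (X := X) ∞
  have := FL.isManifold_real' (X := Y) ∞
  refine ⟨h.continuous, fun e he e' he' x hx hx' => ?_⟩
  have h1 := contMDiffAt_symm_of_mem_maximalAtlas (I := 𝓘(ℝ, FL.C2)) (n := ∞)
    (IsManifold.subset_maximalAtlas he) (e.map_source hx)
  have h2 : ContMDiffAt 𝓘(ℝ, FL.C2) 𝓘(ℝ, FL.C2) ∞ e' (φ (e.symm (e x))) :=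
    contMDiffAt_of_mem_maximalAtlas (IsManifold.subset_maximalAtlas he')
      (by rwa [e.left_inv hx])
  exact (h2.comp (e x) ((h _).comp (e x) h1)).contDiffAt

variable {Y : W.K3} {Z : Type} [TopologicalSpace Z] [ChartedSpace C2 Z] (D : D2 Y Z) {z : Z}

theorem isOpen_off [T1Space Z] : IsOpen (range D.q)ᶜ := (finite_range D.q).isClosed.isOpen_compl

theorem p_md (hz : z ∉ range D.q) : MDifferentiableAt 𝓘(ℂ, C2) 𝓘(ℂ, C2) D.p z := by
  obtain ⟨h1, h2, -⟩ := D.et z hz
  have hx := mem_chart_source C2 z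
  rw [mdifferentiableAt_iff]
  simp only [mfld_simps, differentiableWithinAt_univ]
  refine ⟨(h1.comp ((chartAt C2 z).continuousAt hx)).congr ?_, ?_⟩
  · filter_upwards [chart_source_mem_nhds C2 z] with y hy
    rw [Function.comp_apply, (chartAt C2 z).left_inv hy]
  · simp only [(chartAt C2 z).left_inv hx] at h2
    exact h2

theorem p_cont (hz : z ∉ range D.q) : ContinuousAt D.p z := (p_md D hz).continuousAt

theorem p_diff [IsManifold 𝓘(ℂ, C2) ω Z] [T1Space Z] (hz : z ∉ range D.q) :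
    ∀ᶠ w in 𝓝 (chartAt C2 z z),
      DifferentiableAt ℂ (fun w => chartAt C2 (D.p z) (D.p ((chartAt C2 z).symm w))) w := by
  have : IsManifold 𝓘(ℂ, C2) 1 Z := IsManifold.of_le (n := ω) le_top
  have h := (chartAt C2 z).tendsto_symm (mem_chart_source C2 z)
  filter_upwards [chart_target_mem_nhds C2 z, h.eventually ((isOpen_off D).mem_nhds hz),
    h.eventually ((p_cont D hz).eventually (chart_source_mem_nhds C2 (D.p z)))] with w h1 h2 h3
  exact Inv.md_chart ((p_md D h2).comp w (mdifferentiableAt_atlas_symm (chart_mem_atlas C2 z) h1)) h3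

theorem p_an [IsManifold 𝓘(ℂ, C2) ω Z] [T1Space Z] (hz : z ∉ range D.q) :
    AnalyticAt ℂ (fun w => chartAt C2 (D.p z) (D.p ((chartAt C2 z).symm w))) (chartAt C2 z z) := by
  obtain ⟨U, h1, h2, h3⟩ := _root_.eventually_nhds_iff.1 (p_diff D hz)
  exact P268.analyticOnNhd_of_differentiableOn h2
    (fun w hw => (h1 w hw).differentiableWithinAt) _ h3

theorem p_sm {Z : W.K3} (D : D2 Y Z.X) {z : Z.X} (hz : z ∉ range D.q) :
    ContMDiffAt 𝓘(ℝ, FL.C2) 𝓘(ℝ, FL.C2) ∞ D.p z := by
  rw [contMDiffAt_iff]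
  simp only [mfld_simps, contDiffWithinAt_univ]
  refine ⟨p_cont D hz, ?_⟩
  have h1 : ContDiffAt ℂ ∞ (fun w => chartAt C2 (D.p z) (D.p ((chartAt C2 z).symm w)))
      (P290.H445.φ.symm (P290.H445.φ (chartAt C2 z z))) := by
    rw [ContinuousLinearEquiv.symm_apply_apply]
    exact (p_an D hz).contDiffAt
  exact (P290.H445.φ.contDiff.contDiffAt.comp _
    (h1.comp _ P290.H445.φ.symm.contDiff.contDiffAt)).restrict_scalars ℝ

end SQ

open SQ

theorem sq : StSq := by
  intro Y Z D z hz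
  have := FL.isManifold_real' (X := Z.X) ∞
  set e := chartAt FL.C2 z with he
  have hx : z ∈ e.source := mem_chart_source _ z
  obtain ⟨ε, ε0, hε⟩ := Metric.eventually_nhds_iff_ball.1
    ((e.tendsto_symm hx).eventually ((isOpen_off D).mem_nhds hz) |>.and
      (e.open_target.mem_nhds (e.map_source hx)))
  obtain ⟨f, -, hf⟩ := (SmoothBumpFunction.nhds_basis_tsupport (I := 𝓘(ℝ, FL.C2)) z).mem_iff.1
    ((e.continuousAt hx).eventually (ball_mem_nhds (e z) ε0))
  have hG : ContMDiff 𝓘(ℝ, FL.C2) 𝓘(ℝ, FL.C2) ∞ fun x => e z + f x • (e x - e z) :=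
    contMDiff_const.add (f.contMDiff_smul (contMDiffOn_chart.sub contMDiffOn_const))
  have hm : ∀ x, e z + f x • (e x - e z) ∈ ball (e z) ε := fun x => by
    by_cases h : x ∈ tsupport f
    · exact (convex_ball (e z) ε).add_smul_sub_mem (mem_ball_self ε0) (hf h) f.mem_Icc
    · rw [image_eq_zero_of_notMem_tsupport h, zero_smul, add_zero]
      exact mem_ball_self ε0
  refine ⟨fun x => D.p (e.symm (e z + f x • (e x - e z))), isSm_of fun x => ?_, ?_⟩
  · exact (p_sm D (hε _ (hm x)).1).comp x ((contMDiffOn_chart_symm.contMDiffAt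
      (e.open_target.mem_nhds (hε _ (hm x)).2)).comp x (hG x))
  · filter_upwards [f.eventuallyEq_one, e.open_source.mem_nhds hx] with x h1 h2
    rw [h1, Pi.one_apply, one_smul, add_sub_cancel, e.left_inv h2]

end Vale.Agent.P290Z.Cov
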