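import Vale.Agent.P290Z.Cov.Trace.A

/-! P290Z, part III, block COV: the irregularity of the double cover. -/

open Set Filter
open scoped Topology Manifold ContDiff InnerProductSpace

noncomputable section

namespace Vale.Agent.P290Z.Cov

open Vale.Agent.P290 Vale.Agent.P267 Vale.Agent.P290Z.W Vale.Agent.P290Z.Nk

namespace Tc

variable {Y : W.K3} {Z : Type} [TopologicalSpace Z] [ChartedSpace C2 Z] (D : D2 Y Z) {z : Z}

open Classical in
/-- the sum over the fibre -/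
def tr {E : Type} [AddCommGroup E] (f : Z → E) (y : Y.X) : E :=
  if h : ∃ z, z ∉ range D.q ∧ D.p z = y then f h.choose + f (D.j h.choose) else 0

theorem tr_p {E : Type} [AddCommGroup E] (f : Z → E) (hz : z ∉ range D.q) :
    tr D f (D.p z) = f z + f (D.j z) := by
  have h : ∃ x, x ∉ range D.q ∧ D.p x = D.p z := ⟨z, hz, rfl⟩
  rw [tr, dif_pos h]
  rcases D.fib z hz _ h.choose_spec.1 h.choose_spec.2 with e | e
  · rw [e]
  · rw [e, jj D hz, add_comm]

theorem tr_sub {E : Type} [AddCommGroup E] (f g : Z → E) :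
    tr D f - tr D g = tr D fun x => f x - g x := by
  funext y
  simp only [tr, Pi.sub_apply]
  split_ifs
  · abel
  · simp

/-- the coefficient of `b` with respect to `a` -/
def co {ι : Type} [Fintype ι] (a b : EuclideanSpace ℂ ι) : ℂ := ⟪a, b⟫_ℂ / ⟪a, a⟫_ℂ

theorem co_smul {ι : Type} [Fintype ι] {a : EuclideanSpace ℂ ι} (h : a ≠ 0) (t : ℂ) :
    co a (t • a) = t := by
  rw [co, inner_smul_right, mul_div_cancel_right₀ _ (inner_self_ne_zero.2 h)]

variable [T2Space Z]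

omit [ChartedSpace C2 Z] in
theorem glue {F : Set Z} (hF : F.Finite) (u : Z → Z → ℂ) :
    ∃ v : Z → ℂ, ∀ c ∈ F, v =ᶠ[𝓝 c] u c := by
  classical
  obtain ⟨U, h1, h2⟩ := hF.t2_separation
  refine ⟨fun x => if h : ∃ c ∈ F, x ∈ U c then u h.choose x else 0, fun c hc => ?_⟩
  filter_upwards [(h1 c).2.mem_nhds (h1 c).1] with x hx
  have h : ∃ c ∈ F, x ∈ U c := ⟨c, hc, hx⟩
  rw [dif_pos h]
  by_cases e : h.choose = c
  · rw [e]
  · exact absurd hx (disjoint_left.1 (h2 h.choose_spec.1 hc e) h.choose_spec.2)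

omit [T2Space Z] in
theorem glue_ha {u : Z → Z → ℂ} (hu : ∀ x, ∀ᶠ y in 𝓝 x, HA (u x - u y) y) {v : Z → ℂ} {c : Z}
    (h : v =ᶠ[𝓝 c] u c) : ∀ᶠ x in 𝓝 c, HA (v - u x) x := by
  filter_upwards [hu c, h.eventually_nhds] with x h1 h2
  exact ha_congr h1 (h2.mono fun y hy => by simp only [Pi.sub_apply, hy])

variable [IsManifold 𝓘(ℂ, C2) ω Z]

theorem ha_tr {g : Z → ℂ} (hz : z ∉ range D.q) (h : HA g z) (h' : HA g (D.j z)) :
    HA (tr D g) (D.p z) := by
  obtain ⟨σ, σ', h1, h2, h3, h4, h5⟩ := exists_two D hz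
  refine ha_congr (ha_add (ha_comp (h1.symm ▸ h) h3) (ha_comp (h2.symm ▸ h') h4)) ?_
  filter_upwards [h5] with y a
  rw [← a.2.2, ← tr_p D g a.1, a.2.1]

variable {D} {ι : Type} [Fintype ι] [DecidableEq ι] (B : LD D ι)

theorem hs_tr {g : Z → ℂ} (hz : z ∉ range D.q) (h : HA g z) (h' : HA g (D.j z)) :
    HS B.e (tr D fun x => g x • B.w x) (D.p z) := by
  obtain ⟨σ, σ', h1, h2, h3, h4, h5⟩ := exists_two D hz
  obtain ⟨φ, f1, -, f2⟩ := B.wh z hz
  refine ⟨_, ha_mul (ha_sub (ha_comp (h1.symm ▸ h) h3) (ha_comp (h2.symm ▸ h') h4))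
    (ha_comp (h1.symm ▸ f1) h3), ?_⟩
  filter_upwards [h5, h3.1.eventually (h1.symm ▸ f2)] with y a b
  have c := tr_p D (fun x => g x • B.w x) a.1
  rw [a.2.1] at b c
  rw [c, B.odd _ a.1, a.2.2, b, smul_neg, ← sub_eq_add_neg, ← sub_smul, smul_smul, h1]

variable (D)

/-- germs along the fibres -/
theorem exists_v [CompactSpace Z] {u : Z → Z → ℂ} (hu : ∀ x, ∀ᶠ y in 𝓝 x, HA (u x - u y) y) :
    ∃ v : Y.X → Z → ℂ, (∀ y, ∀ᶠ y' in 𝓝 y, ∀ x ∉ range D.q, D.p x = y' → HA (v y - u x) x) ∧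
      ∀ y, ∀ᶠ y' in 𝓝 y, (∃ x ∉ range D.q, D.p x = y') ∨ v y = v y' := by
  classical
  obtain ⟨v₀, h0⟩ := glue (finite_range D.q) u
  have h1 : ∀ z : Z, ∃ v : Z → ℂ, ∀ c ∈ ({z, D.j z} : Set Z), v =ᶠ[𝓝 c] u c := fun z =>
    glue (toFinite _) u
  choose v₁ h1 using h1
  refine ⟨fun y => if h : ∃ x ∉ range D.q, D.p x = y then v₁ h.choose else v₀, fun y => ?_,
    fun y => ?_⟩
  · by_cases h : ∃ x ∉ range D.q, D.p x = y
    · simp only [dif_pos h]
      have h2 := ev_fib D h.choose_spec.1 (glue_ha hu (h1 h.choose _ (Or.inl rfl)))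
        (glue_ha hu (h1 h.choose _ (Or.inr rfl)))
      rwa [h.choose_spec.2] at h2
    · simp only [dif_neg h]
      exact ev_fib' D (fun x hx e => h ⟨x, hx, e⟩) fun c hc => glue_ha hu (h0 c hc)
  · by_cases h : ∃ x ∉ range D.q, D.p x = y
    · obtain ⟨x, hx, rfl⟩ := h
      obtain ⟨σ, σ', -, -, -, -, h5⟩ := exists_two D hx
      exact h5.mono fun y a => Or.inl ⟨_, a.1, a.2.1⟩
    · refine Eventually.of_forall fun y' => (em _).imp_right fun h' => ?_
      simp only [dif_neg h, dif_neg h']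

/-- the solution away from the points -/
theorem exists_s [CompactSpace Z] (B : LD D ι) (h1 : H1O Y.X) (h2 : H1 B.e) {u : Z → Z → ℂ}
    (hu : ∀ x, ∀ᶠ y in 𝓝 x, HA (u x - u y) y) :
    ∃ s : Z → ℂ, ∀ z ∉ range D.q, HA (s - u z) z := by
  obtain ⟨v, v1, v2⟩ := exists_v D hu
  have v3 : ∀ y, ∀ᶠ y' in 𝓝 y, ∀ x ∉ range D.q, D.p x = y' → HA (fun t => v y t - v y' t) x :=
    fun y => (v1 y).mono fun y' a x hx e =>
      ha_congr (ha_sub (a x hx e) ((v1 y').self_of_nhds x hx e))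
        (Eventually.of_forall fun t => by simp)
  obtain ⟨S, hS⟩ := h1 (fun y => tr D (v y)) fun y => by
    filter_upwards [v2 y, v3 y] with y' a b
    rcases a with ⟨x, hx, rfl⟩ | a
    · rw [tr_sub]
      exact ha_tr D hx (b x hx rfl) (b _ (D.jq x hx).1 (D.jq x hx).2.2)
    · rw [a, sub_self]
      exact ha_const 0 y'
  obtain ⟨T, hT⟩ := h2 (fun y => tr D fun x => v y x • B.w x) fun y => by
    filter_upwards [v2 y, v3 y] with y' a b
    rcases a with ⟨x, hx, rfl⟩ | a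
    · rw [tr_sub]
      simp only [← sub_smul]
      exact hs_tr B hx (b x hx rfl) (b _ (D.jq x hx).1 (D.jq x hx).2.2)
    · rw [a, sub_self]
      exact ⟨fun _ => 0, ha_const 0 y', Eventually.of_forall fun t => by simp⟩
  refine ⟨fun z => (S (D.p z) + co (B.w z) (T (D.p z))) * 2⁻¹, fun z hz => ?_⟩
  obtain ⟨ψ, g1, g2⟩ := hT (D.p z)
  obtain ⟨φ, f1, f0, f2⟩ := B.wh z hz
  refine ha_congr (ha_add ((v1 (D.p z)).self_of_nhds z hz rfl) (ha_mul (ha_add
    (ha_comp (hS (D.p z)) (hm_p D hz)) (ha_mul (ha_comp g1 (hm_p D hz)) (ha_inv f1 f0)))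
    (ha_const 2⁻¹ z))) ?_
  filter_upwards [ev_off D hz, f2, (ha_cont f1).eventually_ne f0, (p_cont D hz).eventually g2,
    (p_cont D hz).eventually (B.fr (D.p z))] with x a1 a2 a3 a4 a5
  have b1 : B.w x ≠ 0 := a2 ▸ smul_ne_zero a3 a5.ne
  have b2 : T (D.p x) =
      (v (D.p z) x - v (D.p z) (D.j x) + ψ (D.p x) * (φ x)⁻¹) • B.w x := by
    rw [Pi.sub_apply, tr_p D _ a1, B.odd x a1, sub_eq_iff_eq_add'] at a4
    rw [a4, add_smul, sub_smul, smul_neg, ← sub_eq_add_neg, mul_smul, a2, inv_smul_smul₀ a3]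
  simp only [Pi.sub_apply, b2, co_smul b1, tr_p D _ a1]
  ring

end Tc

open Tc in
theorem trace : StTrace := by
  intro Y Z _ _ _ _ _ D ι _ _ B h1 h2 u hu
  classical
  obtain ⟨s, hs⟩ := exists_s D B h1 h2 hu
  have h3 : ∀ c, ∃ g, HA g c ∧ ∀ᶠ y in 𝓝[≠] c, g y = (s - u c) y := fun c => hartogs (by
    filter_upwards [ev_off' D c, mem_nhdsWithin_of_mem_nhds (hu c)] with x a b
    exact ha_congr (ha_sub (hs x a) b) (Eventually.of_forall fun t => by simp))
  choose g g1 g2 using h3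
  refine ⟨fun z => if z ∈ range D.q then g z z + u z z else s z, fun z => ?_⟩
  by_cases hz : z ∈ range D.q
  · refine ha_congr (g1 z) ?_
    filter_upwards [eventually_nhdsWithin_iff.1 ((g2 z).and (ev_off' D z))] with x a
    by_cases e : x = z
    · simp only [e, Pi.sub_apply, if_pos hz, add_sub_cancel_right]
    · simp only [Pi.sub_apply, if_neg (a e).2, (a e).1]
  · refine ha_congr (hs z hz) ?_
    filter_upwards [ev_off D hz] with x a
    simp only [Pi.sub_apply, if_neg a]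

end Vale.Agent.P290Z.Cov
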