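import Vale.Agent.P290Z.Cov.Spec
import Vale.Agent.P290Z.Cov.Triv.Core
import Vale.Agent.P290Z.Inv.Loc
import Vale.Agent.P268.Hol

/-! P290Z, block COV, step TRIV: pull backs of line bundles are trivial near the points. -/

open Set Filter
open scoped Topology Manifold ContDiff

noncomputable section

namespace Vale.Agent.P290Z.Cov

open Vale.Agent.P290 Vale.Agent.P267 Vale.Agent.P290Z.W Vale.Agent.P290Z.Nk
open Vale.Agent.P267.FL (LB)
open Vale.Agent.P290.All (dir)
open Vale.Agent.P290.H445 (φ toFL)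

namespace Tv

theorem sm_comp (Y : W.K3) {f : C2 → Y.X} {v : C2}
    (hf : ∀ᶠ w in 𝓝 v, MDifferentiableAt 𝓘(ℂ, C2) 𝓘(ℂ, C2) f w) {F : Y.X → ℂ}
    (hF : H451.Sm F (f v)) : ContDiffAt ℝ ∞ (fun w => F (f w)) v := by
  set c := chartAt C2 (f v) with hc
  have hs : ∀ᶠ w in 𝓝 v, f w ∈ c.source :=
    hf.self_of_nhds.continuousAt.eventually (chart_source_mem_nhds C2 _)
  have hd : ∀ᶠ w in 𝓝 v, DifferentiableAt ℂ (fun w => c (f w)) w := by
    filter_upwards [hf, hs] with w h1 h2 using Inv.md_chart h1 h2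
  obtain ⟨U, hU, hUo, hvU⟩ := eventually_nhds_iff.1 hd
  have ha : AnalyticAt ℂ (fun w => c (f w)) v :=
    P268.analyticAt_of_differentiableOn hUo (fun w hw => (hU w hw).differentiableWithinAt) hvU
  have h1 : ContDiffAt ℝ ∞ (fun w => φ (c (f w))) v :=
    ((φ : C2 →L[ℂ] FL.C2).restrictScalars ℝ).contDiff.contDiffAt.comp v
      (ha.contDiffAt.restrict_scalars ℝ)
  have h2 : ContDiffAt ℝ ∞ (fun z => F ((toFL c).symm z)) (φ (c (f v))) := hF
  refine (h2.comp v h1).congr_of_eventuallyEq ?_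
  filter_upwards [hs] with w hw
  show F (f w) = F (c.symm (φ.symm (φ (c (f w)))))
  rw [φ.symm_apply_apply, c.left_inv hw]

theorem dir_ne (b : Bool) (u : ℂ) : dir b u ≠ 0 := by
  cases b <;> simp [dir]

theorem dir_cont (b : Bool) : Continuous (dir b) := by
  cases b
  · exact continuous_id.prodMk continuous_const
  · exact continuous_const.prodMk continuous_id

theorem fam {Y : W.K3} {C : RC Y.X} {ε : ℝ} {ν : ℂ → C2 → Y.X} (H : IsStd C ε ν) {ι : Type}
    [Fintype ι] [DecidableEq ι] (L : LB Y.X ι) : Fam ε fun h d => L.P (ν h d) where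
  hom h t d ht := by rw [H.hom h t d ht]
  sm b v hv i j := by
    refine sm_comp Y (f := fun w : C2 => ν w.1 (dir b w.2)) (F := fun x => L.P x i j) ?_
      (H451.sm_of_reg0 (L.smooth i j) _)
    have h1 : Continuous fun w : C2 => ‖w.1‖ * ‖dir b w.2‖ ^ 2 :=
      continuous_fst.norm.mul (((dir_cont b).comp continuous_snd).norm.pow 2)
    filter_upwards [h1.continuousAt.eventually (gt_mem_nhds hv)] with w hw
    exact Inv.etale_md (H.etale b w ⟨dir_ne _ _, hw⟩)
  herm _ _ := L.herm _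
  idem _ _ := L.idem _
  tr _ _ := L.tr _

end Tv

theorem triv : StTriv := by
  intro Y Z D ι _ _ L i
  obtain ⟨σ, hσ⟩ := (Tv.fam (D.std i) L).core D.pos
  set c := chartAt C2 (D.q i) with hc
  have hq : D.q i ∈ c.source := mem_chart_source C2 _
  have hs : ∀ᶠ z in 𝓝[≠] (D.q i), z ∈ c.source := nhdsWithin_le_nhds (c.open_source.mem_nhds hq)
  have ht : Tendsto (fun z => c z - c (D.q i)) (𝓝[≠] (D.q i)) (𝓝[≠] 0) := by
    refine tendsto_nhdsWithin_iff.2 ⟨?_, ?_⟩
    · have h1 := ((c.continuousAt hq).sub (continuousAt_const (y := c (D.q i)))).tendsto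
      rw [Pi.sub_apply, sub_self] at h1
      exact h1.mono_left nhdsWithin_le_nhds
    · filter_upwards [hs, self_mem_nhdsWithin] with z h1 h2 h3
      exact h2 (c.injOn h1 hq (sub_eq_zero.1 h3))
  refine ⟨fun z => σ (c z - c (D.q i)), ?_⟩
  filter_upwards [hs, ht.eventually hσ, D.near i] with z h1 h2 h3
  refine ⟨?_, h2.2.1, by rw [h3]; exact h2.2.2⟩
  refine H451.Sm.of_chart (e := toFL c) (W.H445.mem_atlas_toFL Z (chart_mem_atlas C2 _)) h1 ?_
  have h4 : ContDiffAt ℝ ∞ (fun w : FL.C2 => φ.symm w - c (D.q i)) (φ (c z)) :=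
    ((φ.symm : FL.C2 →L[ℂ] C2).restrictScalars ℝ).contDiff.contDiffAt.sub contDiffAt_const
  have h5 : ContDiffAt ℝ ∞ σ (φ.symm (φ (c z)) - c (D.q i)) := by
    rw [φ.symm_apply_apply]
    exact h2.1
  refine (h5.comp (f := fun w : FL.C2 => φ.symm w - c (D.q i)) _ h4).congr_of_eventuallyEq ?_
  have h6 : ∀ᶠ w in 𝓝 (φ (c z)), φ.symm w ∈ c.target :=
    φ.symm.continuous.continuousAt.eventually (c.open_target.mem_nhds (by
      rw [φ.symm_apply_apply]
      exact c.map_source h1))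
  filter_upwards [h6] with w hw
  show σ (c (c.symm (φ.symm w)) - c (D.q i)) = σ (φ.symm w - c (D.q i))
  rw [c.right_inv hw]

end Vale.Agent.P290Z.Cov
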