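import Vale.Agent.P290Z.Cov.VanA
import Vale.Agent.P290Z.W.H445Coh
import Vale.Agent.P290Z.W.H416K3FL
import Vale.Agent.P267.H221.RRMain

/-! P290Z, block COV, step VAN: the first cohomology of the bundle of the cover vanishes. -/

open Set Filter
open scoped Topology Manifold ContDiff

noncomputable section

namespace Vale.Agent.P290Z.Cov

open Vale.Agent.P290 Vale.Agent.P267 Vale.Agent.P290Z.W

theorem van : StVan := by
  intro Y Z _ _ _ _ _ _ D ι _ _ B hB
  obtain ⟨hF, hS, hR, -⟩ := RR.rrBlock Y.X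
  obtain ⟨n, h1, -, h2⟩ := W.H445.rr_ineq Y hS hR
    (fun _ ha h0 => W.H416.dbar_solve ha h0) B.L B.hol
  have hn : n = -2 := by
    have : ((2 * n : ℤ) : ℂ) = ((-4 : ℤ) : ℂ) := by
      push_cast
      rw [← h1, hB]
    have := Int.cast_injective this
    omega
  rw [RR.h0, RR.h0, Van.H0_eq B, Van.H0_dual_eq B, finrank_bot, hn] at h2
  have h3 : RR.h1 B.L B.a 0 = 0 := by omega
  have := (hF ι B.L B.a B.hol 0).2.1
  have h4 : Subsingleton (RR.H1 B.L B.a 0) := Module.finrank_zero_iff.1 h3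
  intro w hw
  exact (Submodule.Quotient.mk_eq_zero (p := (RR.B1 B.L B.a 0).comap (RR.Z1 B.L B.a 0).subtype)
    (x := ⟨w, hw⟩)).1 (Subsingleton.elim _ _)

end Vale.Agent.P290Z.Cov
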