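import Vale.Agent.P290Z.Cov.Spec
import Vale.Agent.P290Z.Inv.Loc
import Vale.Agent.P290.H470.Germ
import Vale.Agent.P267.H399.LBTensor

/-! P290Z, block COV, step VAN: the bundle of the cover and its dual have no sections. -/

open Set Filter
open scoped Topology Manifold ContDiff ComplexConjugate

noncomputable section

namespace Vale.Agent.P290Z.Cov.Van

open Vale.Agent.P290 Vale.Agent.P267 Vale.Agent.P290Z.W Vale.Agent.P290Z.Nk
open Vale.Agent.P267.FL (LB)
open Vale.Agent.P290.H445 (φ)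

section gen

variable {Z : Type} [TopologicalSpace Z] [ChartedSpace C2 Z]

/-- holomorphic functions at a point -/
abbrev MF (g : Z → ℂ) (z : Z) : Prop := MDifferentiableAt 𝓘(ℂ, C2) 𝓘(ℂ, ℂ) g z

theorem punct (c : Z) :
    Tendsto (chartAt C2 c).symm (𝓝[≠] (chartAt C2 c c)) (𝓝[≠] c) := by
  have hc := mem_chart_source C2 c
  refine tendsto_nhdsWithin_iff.2
    ⟨((chartAt C2 c).tendsto_symm hc).mono_left nhdsWithin_le_nhds, ?_⟩
  filter_upwards [mem_nhdsWithin_of_mem_nhds (chart_target_mem_nhds C2 c), self_mem_nhdsWithin]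
    with v h1 h2 h3
  apply h2
  rw [mem_singleton_iff, ← (chartAt C2 c).right_inv h1, mem_singleton_iff.1 h3]

omit [ChartedSpace C2 Z] in
theorem off [T1Space Z] {Q : Set Z} (hQ : Q.Finite) (c : Z) : ∀ᶠ z in 𝓝[≠] c, z ∉ Q := by
  have h : (Q \ {c})ᶜ ∈ 𝓝 c :=
    (hQ.subset sdiff_subset).isClosed.isOpen_compl.mem_nhds fun h => h.2 rfl
  filter_upwards [mem_nhdsWithin_of_mem_nhds h, self_mem_nhdsWithin] with z h1 h2 h3
  exact h1 ⟨h3, h2⟩

variable [IsManifold 𝓘(ℂ, C2) ω Z]

theorem md_of_symm {V M : Type} [NormedAddCommGroup V] [NormedSpace ℂ V] [TopologicalSpace M]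
    [ChartedSpace V M] {g : Z → M} {z : Z} (h : MDifferentiableAt 𝓘(ℂ, C2) 𝓘(ℂ, V)
      (fun v => g ((chartAt C2 z).symm v)) (chartAt C2 z z)) :
    MDifferentiableAt 𝓘(ℂ, C2) 𝓘(ℂ, V) g z := by
  refine (h.comp z (mdifferentiableAt_atlas (chart_mem_atlas C2 z)
    (mem_chart_source C2 z))).congr_of_eventuallyEq ?_
  filter_upwards [chart_source_mem_nhds C2 z] with y hy
  simp only [Function.comp, (chartAt C2 z).left_inv hy]

theorem mf_of_ha {g : Z → ℂ} {z : Z} (h : HA g z) : MF g z :=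
  md_of_symm (AnalyticAt.differentiableAt h).mdifferentiableAt

/-- extension over an isolated point -/
theorem extend {g : Z → ℂ} {c : Z} (h : ∀ᶠ z in 𝓝[≠] c, MF g z) :
    ∃ w : Z → ℂ, MF w c ∧ ∀ᶠ z in 𝓝[≠] c, w z = g z := by
  set e := chartAt C2 c with he
  have h1 : ∀ᶠ v in 𝓝[≠] (e c), DifferentiableAt ℂ (fun v => g (e.symm v)) v := by
    filter_upwards [(punct c).eventually h,
      mem_nhdsWithin_of_mem_nhds (chart_target_mem_nhds C2 c)] with v h1 h2
    exact (MDifferentiableAt.comp v h1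
      (mdifferentiableAt_atlas_symm (chart_mem_atlas C2 c) h2)).differentiableAt
  have t1 : Tendsto φ.symm (𝓝[≠] (φ (e c))) (𝓝[≠] (e c)) := by
    have := φ.symm.toHomeomorph.map_punctured_nhds_eq (φ (e c))
    rw [show φ.symm.toHomeomorph (φ (e c)) = e c from φ.symm_apply_apply _] at this
    exact this.le
  have t2 : Tendsto (fun z => φ (e z)) (𝓝[≠] c) (𝓝[≠] (φ (e c))) := by
    refine tendsto_nhdsWithin_iff.2 ⟨(φ.continuous.continuousAt.comp
      (e.continuousAt (mem_chart_source C2 c))).tendsto.mono_left nhdsWithin_le_nhds, ?_⟩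
    filter_upwards [mem_nhdsWithin_of_mem_nhds (chart_source_mem_nhds C2 c), self_mem_nhdsWithin]
      with z h1 h2 h3
    exact h2 (e.injOn h1 (mem_chart_source C2 c) (φ.injective h3))
  obtain ⟨w, hw, hw'⟩ := H470.hartogs (u := fun v => g (e.symm (φ.symm v))) (p := φ (e c)) (by
    filter_upwards [t1.eventually h1] with v hv
    exact DifferentiableAt.comp (g := fun v => g (e.symm v)) v hv φ.symm.differentiableAt)
  refine ⟨fun z => w (φ (e z)), ?_, ?_⟩
  · exact (DifferentiableAt.comp (g := w) (e c) hw.differentiableAt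
      φ.differentiableAt).mdifferentiableAt.comp c
      (mdifferentiableAt_atlas (chart_mem_atlas C2 c) (mem_chart_source C2 c))
  · filter_upwards [t2.eventually hw', mem_nhdsWithin_of_mem_nhds (chart_source_mem_nhds C2 c)]
      with z h1 h2
    rw [h1, φ.symm_apply_apply, e.left_inv h2]

/-- functions which are holomorphic off a finite set are constant -/
theorem const_off [T2Space Z] [CompactSpace Z] [ConnectedSpace Z] {Q : Set Z} (hQ : Q.Finite)
    {g : Z → ℂ} (h : ∀ z ∉ Q, MF g z) {a b : Z} (ha : a ∉ Q) (hb : b ∉ Q) : g a = g b := by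
  classical
  choose w hw hw' using fun c : Z => extend ((off hQ c).mono h)
  have hG : MDifferentiable 𝓘(ℂ, C2) 𝓘(ℂ, ℂ) fun z => if z ∈ Q then w z z else g z := by
    intro z
    by_cases hz : z ∈ Q
    · refine (hw z).congr_of_eventuallyEq ?_
      have h1 := (hw' z).and (off hQ z)
      rw [eventually_nhdsWithin_iff] at h1
      filter_upwards [h1] with y hy
      by_cases e : y = z
      · rw [e, if_pos hz]
      · rw [if_neg (hy e).2, (hy e).1]
    · refine (h z hz).congr_of_eventuallyEq ?_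
      filter_upwards [hQ.isClosed.isOpen_compl.mem_nhds hz] with y hy
      exact if_neg hy
  have := hG.apply_eq_of_compactSpace a b
  rwa [if_neg ha, if_neg hb] at this

end gen

section fl

variable {X : Type*} [TopologicalSpace X] [ChartedSpace FL.C2 X] [IsManifold 𝓘(ℂ, FL.C2) ω X]
variable {ι : Type} [Fintype ι] [DecidableEq ι] {L : LB X ι} {a : X → Fin 2 → ℂ}
  {e s : X → EuclideanSpace ℂ ι} {x : X}

omit [IsManifold 𝓘(ℂ, FL.C2) ω X] in
theorem at0_of_sm {V : Type*} [NormedAddCommGroup V] [NormedSpace ℂ V] {f : X → V}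
    (h : H451.Sm f x) : FL.At0 1 0 f x := by
  unfold FL.At0
  rw [LB.loc0_zero]
  exact ContDiffAt.of_le h (by simp)

/-- the coefficient of a holomorphic section in a holomorphic frame -/
theorem coeff (he : ∀ᶠ y in 𝓝 x, H451.FrameAt L a e y) (hs : s ∈ RR.H0 L a 0) :
    ∃ c : X → ℂ, FL.HolAt 0 c x ∧ ∀ᶠ y in 𝓝 x, s y = c y • e y := by
  obtain ⟨⟨h1, h2⟩, h3⟩ := (RR.mem_H0 _ _ _).1 hs
  obtain ⟨k, hk⟩ : ∃ k, e x k ≠ 0 := by
    by_contra h
    push Not at h
    exact he.self_of_nhds.ne (by ext i; exact h i)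
  have hne : ∀ᶠ y in 𝓝 x, e y k ≠ 0 :=
    (H451.sm_euclid.1 he.self_of_nhds.sm k).continuousAt.eventually_ne hk
  have hc : ∀ᶠ y in 𝓝 x, s y = (s y k / e y k) • e y := by
    filter_upwards [he, hne] with y a1 a2
    obtain ⟨c, hc⟩ := L.fibre_smul y a1.sec (h2 y) a1.ne
    have hc' : s y k = c * e y k := by rw [hc]; rfl
    rw [hc', mul_div_cancel_right₀ _ a2]
    exact hc
  refine ⟨_, FL.holAt_of_dbar0 ?_, hc⟩
  filter_upwards [he, hne, hc.eventually_nhds] with y a1 a2 a3
  have hsm : H451.Sm (fun y => s y k / e y k) y :=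
    (H451.sm_euclid.1 (H451.sm_of_reg0 h1 y) k).div (H451.sm_euclid.1 a1.sm k) a2
  refine ⟨at0_of_sm hsm, funext fun i => ?_⟩
  have b1 : L.db0 a 0 (fun y => (s y k / e y k) • e y) y i = 0 := by
    have := congrFun (congrFun h3 y) i
    unfold LB.db0 at this ⊢
    rw [← H451.dbar0_congr a3]
    exact (congrArg (fun v => _ + a y i • v) a3.self_of_nhds.symm).trans this
  have b2 := a1.hol i
  unfold LB.db0 at b1 b2
  rw [H451.dbar0_smul hsm a1.sm, RR.act_add, RR.act_smul, RR.act_smul, a1.sec, smul_comm (a y i),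
    add_right_comm, ← smul_add, b2, smul_zero, zero_add] at b1
  exact (smul_eq_zero.1 b1).resolve_right a1.ne

/-- the pairing of a holomorphic frame with a holomorphic section of the dual bundle -/
theorem pairing (he : ∀ᶠ y in 𝓝 x, H451.FrameAt L a e y) (hs : s ∈ RR.H0 L.dual (-a) 0) :
    FL.HolAt 0 (fun y => LB.bp (e y) (s y)) x := by
  obtain ⟨⟨h1, h2⟩, h3⟩ := (RR.mem_H0 _ _ _).1 hs
  refine FL.holAt_of_dbar0 (he.mono fun y hy => ?_)
  have a1 := at0_of_sm hy.sm
  have a2 := at0_of_sm (H451.sm_of_reg0 h1 y)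
  refine ⟨LB.at0_bp (κ₁ := 0) (κ₂ := 0) a1 a2, funext fun i => ?_⟩
  have := LB.dbar0_bp (a := a) a1 a2 hy.sec (h2 y) i
  rw [hy.hol i, h3, LB.bp_zero_left, zero_add] at this
  exact this.trans (by simp [LB.bp_zero_right])

end fl

section cover

variable {Y : W.K3} {Z : Type} [TopologicalSpace Z] [ChartedSpace C2 Z]
  [IsManifold 𝓘(ℂ, C2) ω Z] [T2Space Z] (D : D2 Y Z)

theorem mf_of_holAt {c : Y.X → ℂ} {x : Y.X} (h : FL.HolAt 0 c x) : MF c x := by
  refine md_of_symm (DifferentiableAt.mdifferentiableAt ?_)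
  unfold FL.HolAt at h
  rw [LB.loc0_zero] at h
  exact DifferentiableAt.comp (g := c ∘ (chartAt FL.C2 x).symm) (f := φ) _ h.differentiableAt
    φ.differentiableAt

omit [T2Space Z] in
theorem md_p {z : Z} (hz : z ∉ range D.q) : MDifferentiableAt 𝓘(ℂ, C2) 𝓘(ℂ, C2) D.p z :=
  md_of_symm (Inv.etale_md (D.et z hz))

omit [IsManifold 𝓘(ℂ, C2) ω Z] in
/-- the image of the cover is dense -/
theorem zero_of_off {V : Type} [TopologicalSpace V] [T2Space V] [Zero V] {s : Y.X → V}
    (hs : Continuous s) (h : ∀ z ∉ range D.q, s (D.p z) = 0) (y : Y.X) : s y = 0 := by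
  rcases D.cov y with ⟨z, hz, rfl⟩ | ⟨i, b, u, rfl⟩
  · exact h z hz
  have hd : All.dir b u ≠ 0 := by
    cases b
    · exact fun h => one_ne_zero (congrArg Prod.snd h)
    · exact fun h => one_ne_zero (congrArg Prod.fst h)
  set e := chartAt C2 (D.q i) with he
  have t0 : Tendsto (fun t : ℂ => e (D.q i) + t • All.dir b u) (𝓝 0) (𝓝 (e (D.q i))) :=
    Continuous.tendsto' (by fun_prop) _ _ (by simp)
  have t1 : Tendsto (fun t : ℂ => e (D.q i) + t • All.dir b u) (𝓝[≠] 0) (𝓝[≠] (e (D.q i))) := by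
    refine tendsto_nhdsWithin_iff.2 ⟨t0.mono_left nhdsWithin_le_nhds, ?_⟩
    filter_upwards [self_mem_nhdsWithin] with t ht h'
    exact smul_ne_zero ht hd (add_eq_left.1 h')
  have t2 := (punct (D.q i)).comp t1
  have c1 : ContinuousAt (fun w : C2 => D.ν i w.1 (All.dir b w.2)) (0, u) :=
    ((D.std i).etale b (0, u) ⟨hd, by simpa using D.pos⟩).1
  have c2 : Tendsto (fun t : ℂ => ((1 * t ^ 2, u) : C2)) (𝓝[≠] 0) (𝓝 (0, u)) :=
    (Continuous.tendsto' (by fun_prop) _ _ (by simp)).mono_left nhdsWithin_le_nhds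
  have c3 := (hs.tendsto _).comp (c1.tendsto.comp c2)
  rw [← (D.std i).zero b u]
  refine tendsto_nhds_unique c3 (tendsto_const_nhds.congr' ?_)
  filter_upwards [t2.eventually (D.near i), t2.eventually (off (finite_range D.q) _),
    (t0.mono_left nhdsWithin_le_nhds).eventually (chart_target_mem_nhds C2 (D.q i)),
    self_mem_nhdsWithin] with t a1 a2 a3 a4
  have a5 := h _ a2
  rw [a1] at a5
  simp only [Function.comp] at a5 ⊢
  rw [← he, e.right_inv a3, add_sub_cancel_left] at a5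
  rw [(D.std i).hom 1 t _ a4, a5]

variable [CompactSpace Z] [ConnectedSpace Z]

theorem odd_zero {g : Z → ℂ} (h : ∀ z ∉ range D.q, MF g z)
    (ho : ∀ z ∉ range D.q, g (D.j z) = -g z) {z : Z} (hz : z ∉ range D.q) : g z = 0 := by
  have h1 := const_off (finite_range D.q) h hz (D.jq z hz).1
  rw [ho z hz] at h1
  linear_combination h1 / 2

variable {D} {ι : Type} [Fintype ι] [DecidableEq ι] (B : LD D ι)

theorem H0_eq : RR.H0 B.L B.a 0 = ⊥ := by
  refine (Submodule.eq_bot_iff _).2 fun s hs => funext fun y => ?_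
  have key : ∀ z ∉ range D.q, ∃ c : Z → ℂ, MF c z ∧
      ∀ᶠ z' in 𝓝 z, B.w z' ≠ 0 ∧ s (D.p z') = c z' • B.w z' := by
    intro z hz
    obtain ⟨f, f1, f2, f3⟩ := B.wh z hz
    obtain ⟨c, c1, c2⟩ := coeff (B.fr (D.p z)) hs
    have hp := (md_p D hz).continuousAt
    refine ⟨fun z => c (D.p z) / f z,
      ((mf_of_holAt c1).comp z (md_p D hz)).div (mf_of_ha f1) f2, ?_⟩
    filter_upwards [f3, hp.eventually c2, hp.eventually (B.fr (D.p z)),
      (mf_of_ha f1).continuousAt.eventually_ne f2] with z' a1 a2 a3 a4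
    rw [a1, a2, smul_smul, div_mul_cancel₀ _ a4]
    exact ⟨smul_ne_zero a4 a3.ne, rfl⟩
  have hq : ∀ (c : ℂ) (v : EuclideanSpace ℂ ι), v ≠ 0 → inner ℂ v (c • v) / inner ℂ v v = c :=
    fun c v hv => by rw [inner_smul_right, mul_div_cancel_right₀ _ (inner_self_ne_zero.2 hv)]
  refine zero_of_off D ((RR.mem_H0 _ _ _).1 hs).1.1.continuous (fun z hz => ?_) y
  have h0 := odd_zero D (g := fun z => inner ℂ (B.w z) (s (D.p z)) / inner ℂ (B.w z) (B.w z))
    (fun z hz => by
      obtain ⟨c, c1, c2⟩ := key z hz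
      refine c1.congr_of_eventuallyEq (c2.mono fun z' h => ?_)
      simp only [h.2, hq _ _ h.1])
    (fun z hz => by
      simp only [B.odd z hz, (D.jq z hz).2.2, inner_neg_left, inner_neg_right, neg_neg, neg_div])
    hz
  obtain ⟨c, -, c2⟩ := key z hz
  have h := c2.self_of_nhds
  simp only [h.2, hq _ _ h.1] at h0
  rw [h.2, h0, zero_smul]

theorem H0_dual_eq : RR.H0 B.L.dual (-B.a) 0 = ⊥ := by
  refine (Submodule.eq_bot_iff _).2 fun s hs => funext fun y => ?_
  refine zero_of_off D ((RR.mem_H0 _ _ _).1 hs).1.1.continuous (fun z hz => ?_) y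
  have h0 := odd_zero D (g := fun z => LB.bp (B.w z) (s (D.p z)))
    (fun z hz => by
      obtain ⟨f, f1, -, f3⟩ := B.wh z hz
      refine ((mf_of_ha f1).mul ((mf_of_holAt (pairing (B.fr (D.p z)) hs)).comp z
        (md_p D hz))).congr_of_eventuallyEq (f3.mono fun z' h => ?_)
      simp only [h, LB.bp_smul_left, Pi.mul_apply, Function.comp])
    (fun z hz => by simp only [B.odd z hz, (D.jq z hz).2.2, LB.bp_neg_left]) hz
  obtain ⟨f, -, f2, f3⟩ := B.wh z hz
  have h := (B.fr (D.p z)).self_of_nhds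
  simp only [f3.self_of_nhds, LB.bp_smul_left] at h0
  exact (B.L.bp_eq_zero h.sec (((RR.mem_H0 _ _ _).1 hs).1.2 _)
    ((mul_eq_zero.1 h0).resolve_left f2)).resolve_left h.ne

end cover

end Vale.Agent.P290Z.Cov.Van
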