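import Vale.Agent.P290Z.Cov.Trace.A
import Vale.Agent.P290Z.KT.Int
import Vale.Agent.P290Z.KT.Dom
import Vale.Agent.P290Z.Top.HR

/-! P290Z, part III, block COV: the cover has degree two. -/

open Set Filter MeasureTheory
open scoped Topology Manifold ContDiff ComplexConjugate

noncomputable section

namespace Vale.Agent.P290Z.Cov

open Vale.Agent.P290 Vale.Agent.P267 Vale.Agent.P290Z.W Vale.Agent.P290Z.Nk
open Vale.Agent.P267.FL (volX quoX loc2 Reg2 Ch)
open Vale.Agent.P267.BlockC (pair)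
open Vale.Agent.P290Z.W.Kur (omF)
open Vale.Agent.P290.H445 (φ)

namespace Vl

theorem meas_inter {S T : Type} [TopologicalSpace S] [MeasurableSpace S] [BorelSpace S]
    [TopologicalSpace T] [MeasurableSpace T] [BorelSpace T] {f : S → T} {s : Set S} {t : Set T}
    (hf : ContinuousOn f s) (hs : MeasurableSet s) (ht : MeasurableSet t) :
    MeasurableSet (s ∩ f ⁻¹' t) := by
  have h := hs.subtype_image ((continuousOn_iff_continuous_domRestrict.1 hf).measurable ht)
  convert h using 1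
  ext x
  simp [and_comm]

section gen

variable {X : Type} [TopologicalSpace X] [ChartedSpace FL.C2 X] [IsManifold 𝓘(ℂ, FL.C2) ω X]
  [T2Space X] [CompactSpace X] [MeasurableSpace X] [BorelSpace X] {b : X → ℂ} {A : Set X}

omit [ChartedSpace FL.C2 X] [IsManifold 𝓘(ℂ, FL.C2) ω X] [T2Space X] [CompactSpace X] in
theorem meas_img (hA : MeasurableSet A) {e : OpenPartialHomeomorph X FL.C2} (hs : A ⊆ e.source) :
    MeasurableSet (e '' A) := by
  rw [e.image_eq_target_inter_inv_preimage hs]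
  exact meas_inter e.continuousOn_symm e.open_target.measurableSet hA

theorem integ (hb : Reg2 0 1 b) : Integrable (quoX b) (volX X) :=
  FL.integrable_quoX hb (HasCompactSupport.of_compactSpace b)

/-- the integral over a measurable part of a chart -/
theorem set_chart (hb : Reg2 0 1 b) (hA : MeasurableSet A) {e : Ch X} (he : e ∈ atlas FL.C2 X)
    (hs : A ⊆ e.source) : ∫ x in A, quoX b x ∂(volX X) = ∫ w in e '' A, loc2 1 e b w := by
  have : IsManifold 𝓘(ℝ, FL.C2) ∞ X := H928.Int.isManifold_real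
  have : H928.Int.PosAtlas FL.C2 X := H928.Int.posAtlas_complex
  have hm := meas_img hA hs
  have ht : e '' A ⊆ e.target := image_subset_iff.2 fun x hx => e.map_source (hs hx)
  rw [← integral_indicator hA, FL.integral_volX_chart he
    ((integ hb).indicator hA).aestronglyMeasurable
    (fun x hx => indicator_of_notMem (fun h => hx (hs h)) _),
    ← inter_eq_right.2 ht, ← setIntegral_indicator hm]
  refine setIntegral_congr_fun e.open_target.measurableSet fun w hw => ?_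
  by_cases h : e.symm w ∈ A
  · rw [indicator_of_mem h, indicator_of_mem (show w ∈ e '' A from ⟨_, h, e.right_inv hw⟩)]
    exact (FL.pou X).w_smul_quo (FL.isDens_dens b) he hw
  · rw [indicator_of_notMem h, smul_zero, indicator_of_notMem]
    rintro ⟨x, hx, rfl⟩
    exact h ((e.left_inv (hs hx)).symm ▸ hx)

theorem null (hA : MeasurableSet A)
    (h : ∀ e ∈ atlas FL.C2 X, volume {w | w ∈ e.target ∧ e.symm w ∈ A} = 0) : volX X A = 0 := by
  rw [volX, H928.Int.Pou.meas, Measure.sum_apply _ hA, ENNReal.tsum_eq_zero]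
  intro i
  rw [Measure.map_apply_of_aemeasurable ((H928.Int.Pou.aemeas_symm volume _).mono_ac
    (withDensity_absolutelyContinuous _ _)) hA]
  refine withDensity_absolutelyContinuous _ _ ?_
  rw [Measure.restrict_apply' ((FL.pou X).e i).open_target.measurableSet, inter_comm]
  exact h _ ((FL.pou X).mem i)

end gen

/-- the volume form -/
def vf (X : W.K3) : X.X → ℂ := (omF X).wedge (omF X).bar

theorem vf_eq (X : W.K3) (x : X.X) : vf X x = Complex.normSq (W.H445.Om X x) := by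
  simp [vf, FL.TwoF.wedge, omF, FL.TwoF.bar, Complex.mul_conj]

theorem vf_reg (X : W.K3) : Reg2 0 1 (vf X) :=
  (H332.reg2_wedge (Top.HR.omF_smooth X) (Top.HR.bar_smooth (Top.HR.omF_smooth X))).zero_order

variable {Y Z : W.K3} (D : D2 Y Z.X)

theorem point (hJ : Jac D) {x : Z.X} (hx : x ∉ range D.q) {e : Ch Z.X} (he : e ∈ atlas FL.C2 Z.X)
    (hs : x ∈ e.source) {e' : Ch Y.X} (he' : e' ∈ atlas FL.C2 Y.X) (hs' : D.p x ∈ e'.source) :
    ∃ L : FL.C2 →L[ℝ] FL.C2, HasFDerivAt (fun w => e' (D.p (e.symm w))) L (e x) ∧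
      |L.det| • loc2 1 e' (vf Y) (e' (D.p x)) = loc2 1 e (vf Z) (e x) := by
  set c := chartAt C2 x with hc
  set M := fderiv ℂ (fun w => chartAt C2 (D.p x) (D.p (c.symm w))) (c x) with hM
  have h0 : HasFDerivAt (fun w => chartAt C2 (D.p x) (D.p (c.symm w))) M (c x) :=
    (Tc.hm_p D hx).2.differentiableAt.hasFDerivAt
  set N := ((φ : C2 →L[ℂ] FL.C2).comp M).comp (φ.symm : FL.C2 →L[ℂ] C2) with hN
  have h1 : HasFDerivAt (fun w => chartAt FL.C2 (D.p x) (D.p ((chartAt FL.C2 x).symm w))) N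
      (chartAt FL.C2 x x) :=
    HasFDerivAt.comp (f := φ.symm) (chartAt FL.C2 x x)
      ((φ : C2 →L[ℂ] FL.C2).hasFDerivAt.comp (c x) h0) (φ.symm : FL.C2 →L[ℂ] C2).hasFDerivAt
  have h2 : (N.restrictScalars ℝ).det = Complex.normSq M.det := by
    have h3 : N.det = M.det := LinearMap.det_conj (M : C2 →ₗ[ℂ] C2) φ.toLinearEquiv
    rw [← h3, ← Algebra.norm_complex_apply, ContinuousLinearMap.det, ContinuousLinearMap.det,
      ← LinearMap.det_restrictScalars]
    rfl
  have e0 := e.left_inv hs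
  have h3 : HasFDerivAt (fun w => chartAt FL.C2 x (e.symm w)) (H686.Dch e x) (e x) :=
    ((H686.trans_contDiffAt he (chart_mem_atlas _ x) hs (mem_chart_source _ x)
      (n := 1)).differentiableAt one_ne_zero).hasFDerivAt
  have h4 : HasFDerivAt (fun w => chartAt FL.C2 (D.p (e.symm (e x))) (D.p (e.symm w)))
      ((N.restrictScalars ℝ).comp (H686.Dch e x)) (e x) := by
    rw [e0]
    refine (HasFDerivAt.comp (e x) (by rw [e0]; exact h1.restrictScalars ℝ)
      h3).congr_of_eventuallyEq ?_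
    filter_upwards [(e.tendsto_symm hs).eventually (chart_source_mem_nhds FL.C2 x)] with w hw
    simp only [Function.comp, (chartAt FL.C2 x).left_inv hw]
  have h5 := hJ x hx
  have h6 : M.det ≠ 0 := right_ne_zero_of_mul (h5 ▸ W.H445.Om_ne_zero Z x)
  obtain ⟨L, l1, l2⟩ := KT.It.chart_der (μ := fun w => D.p (e.symm w)) (b := vf Y)
    (D := fun _ => (N.restrictScalars ℝ).comp (H686.Dch e x)) (z := e x)
    (ContinuousAt.comp (f := e.symm) (e0.symm ▸ Tc.p_cont D hx)
      (e.continuousAt_symm (e.map_source hs))) h4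
    (by rw [H686.det_comp', h2]
        exact mul_pos (Complex.normSq_pos.2 h6) (H686.Dch_det_pos he hs)) he' (e0.symm ▸ hs')
  refine ⟨L, l1, ?_⟩
  rw [e0] at l2
  rw [l2, H686.loc2_eq he hs, H686.det_comp', h2, vf_eq, vf_eq, ← h5, Complex.normSq_mul]
  push_cast
  ring

variable [MeasurableSpace Y.X] [BorelSpace Y.X] [MeasurableSpace Z.X] [BorelSpace Z.X]

theorem transfer (hJ : Jac D) {A : Set Z.X} (hA : MeasurableSet A) (hQ : ∀ x ∈ A, x ∉ range D.q)
    (hi : InjOn D.p A) (hm : MeasurableSet (D.p '' A)) {e : Ch Z.X} (he : e ∈ atlas FL.C2 Z.X)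
    (hs : A ⊆ e.source) {e' : Ch Y.X} (he' : e' ∈ atlas FL.C2 Y.X) (hs' : D.p '' A ⊆ e'.source) :
    ∫ x in A, quoX (vf Z) x ∂(volX Z.X) = ∫ y in D.p '' A, quoX (vf Y) y ∂(volX Y.X) := by
  have h1 : ∀ w ∈ e '' A, ∃ L : FL.C2 →L[ℝ] FL.C2,
      HasFDerivAt (fun w => e' (D.p (e.symm w))) L w ∧
      |L.det| • loc2 1 e' (vf Y) (e' (D.p (e.symm w))) = loc2 1 e (vf Z) w := by
    rintro _ ⟨x, hx, rfl⟩
    rw [e.left_inv (hs hx)]
    exact point D hJ (hQ x hx) he (hs hx) he' (hs' ⟨x, hx, rfl⟩)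
  choose! L l1 l2 using h1
  have h2 : e' '' (D.p '' A) = (fun w => e' (D.p (e.symm w))) '' (e '' A) := by
    rw [image_image, image_image]
    exact image_congr fun x hx => by rw [e.left_inv (hs hx)]
  have h3 : InjOn (fun w => e' (D.p (e.symm w))) (e '' A) := by
    rintro _ ⟨x, hx, rfl⟩ _ ⟨x', hx', rfl⟩ h
    simp only [e.left_inv (hs hx), e.left_inv (hs hx')] at h
    rw [hi hx hx' (e'.injOn (hs' ⟨x, hx, rfl⟩) (hs' ⟨x', hx', rfl⟩) h)]
  rw [set_chart (vf_reg Z) hA he hs, set_chart (vf_reg Y) hm he' hs', h2,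
    integral_image_eq_integral_abs_det_fderiv_smul volume (meas_img hA hs)
      (fun w hw => (l1 w hw).hasFDerivWithinAt) h3]
  exact (setIntegral_congr_fun (meas_img hA hs) l2).symm

/-- evenly covered neighbourhoods -/
theorem even (hJ : Jac D) {z : Z.X} (hz : z ∉ range D.q) : ∃ U ∈ 𝓝 (D.p z),
    U ⊆ D.p '' (range D.q)ᶜ ∧ ∀ B ⊆ U, MeasurableSet B →
      ∫ x in (range D.q)ᶜ ∩ D.p ⁻¹' B, quoX (vf Z) x ∂(volX Z.X) =
        2 * ∫ y in B, quoX (vf Y) y ∂(volX Y.X) := by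
  have key : ∀ z ∉ range D.q, ∀ N ∈ 𝓝 z, ∃ O, IsOpen O ∧ z ∈ O ∧ O ⊆ N ∧
      (∀ x ∈ O, x ∉ range D.q) ∧ InjOn D.p O ∧ O ⊆ (chartAt FL.C2 z).source ∧
      ∀ᶠ y in 𝓝 (D.p z), y ∈ D.p '' O := by
    intro z hz N hN
    obtain ⟨σ, h1, h2, h3, h4⟩ := Tc.exists_inv D hz
    obtain ⟨O, o1, o2, o3⟩ := _root_.eventually_nhds_iff.1
      (h4.and ((Tc.ev_off D hz).and (inter_mem hN (chart_source_mem_nhds FL.C2 z))))
    refine ⟨O, o2, o3, fun x hx => (o1 x hx).2.2.1, fun x hx => (o1 x hx).2.1,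
      fun x hx x' hx' e => by rw [← (o1 x hx).1, e, (o1 x' hx').1],
      fun x hx => (o1 x hx).2.2.2, ?_⟩
    filter_upwards [h3, h2.1.eventually (h1.symm ▸ o2.mem_nhds o3)] with y a1 a2
    exact ⟨_, a2, a1⟩
  obtain ⟨j1, j2, j3⟩ := D.jq z hz
  obtain ⟨N, N', n1, n2, n3⟩ := t2_separation_nhds j2.symm
  obtain ⟨O, o1, o2, o3, o4, o5, o6, o7⟩ := key z hz N n1
  obtain ⟨O', k1, k2, k3, k4, k5, k6, k7⟩ := key _ j1 N' n2
  rw [j3] at k7
  have h1 := Tc.ev_fib D hz (P := fun x => x ∈ O ∪ O')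
    (mem_of_superset (o1.mem_nhds o2) subset_union_left)
    (mem_of_superset (k1.mem_nhds k2) subset_union_right)
  refine ⟨_, h1.and (o7.and (k7.and (chart_source_mem_nhds FL.C2 (D.p z)))),
    fun y hy => image_mono o4 hy.2.1, fun B hB hm => ?_⟩
  have h2 : ∀ {z : Z.X} {O : Set Z.X}, IsOpen O → (∀ x ∈ O, x ∉ range D.q) → InjOn D.p O →
      O ⊆ (chartAt FL.C2 z).source → B ⊆ D.p '' O → MeasurableSet (O ∩ D.p ⁻¹' B) ∧
      ∫ x in O ∩ D.p ⁻¹' B, quoX (vf Z) x ∂(volX Z.X) = ∫ y in B, quoX (vf Y) y ∂(volX Y.X) := by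
    intro z' O a1 a2 a3 a4 a5
    have b1 := meas_inter (fun x hx => (Tc.p_cont D (a2 x hx)).continuousWithinAt)
      a1.measurableSet hm
    have b2 : D.p '' (O ∩ D.p ⁻¹' B) = B := by rw [image_inter_preimage, inter_eq_right.2 a5]
    refine ⟨b1, ?_⟩
    rw [transfer D hJ b1 (fun x hx => a2 x hx.1) (a3.mono inter_subset_left) (b2.symm ▸ hm)
      (chart_mem_atlas _ z') (inter_subset_left.trans a4) (chart_mem_atlas _ (D.p z))
      (b2.symm ▸ fun y hy => (hB hy).2.2.2), b2]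
  obtain ⟨m1, i1⟩ := h2 o1 o4 o5 o6 fun y hy => (hB hy).2.1
  obtain ⟨m2, i2⟩ := h2 k1 k4 k5 k6 fun y hy => (hB hy).2.2.1
  have h3 : (range D.q)ᶜ ∩ D.p ⁻¹' B = O ∩ D.p ⁻¹' B ∪ O' ∩ D.p ⁻¹' B := by
    rw [← union_inter_distrib_right]
    exact Subset.antisymm (fun x hx => ⟨(hB hx.2).1 x hx.1 rfl, hx.2⟩)
      (inter_subset_inter_left _ (union_subset o4 k4))
  rw [h3, setIntegral_union (n3.mono (inter_subset_left.trans o3) (inter_subset_left.trans k3)) m2
    (integ (vf_reg Z)).integrableOn (integ (vf_reg Z)).integrableOn, i1, i2, two_mul]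

theorem total (hJ : Jac D) :
    ∫ x, quoX (vf Z) x ∂(volX Z.X) = 2 * ∫ y, quoX (vf Y) y ∂(volX Y.X) := by
  set R := D.p '' (range D.q)ᶜ with hR
  have h1 : ∀ y ∈ R, ∃ U ∈ 𝓝 y, U ⊆ R ∧ ∀ B ⊆ U, MeasurableSet B →
      ∫ x in (range D.q)ᶜ ∩ D.p ⁻¹' B, quoX (vf Z) x ∂(volX Z.X) =
        2 * ∫ y in B, quoX (vf Y) y ∂(volX Y.X) := by
    rintro _ ⟨z, hz, rfl⟩
    exact even D hJ hz
  choose! U u1 u2 u3 using h1
  have hRo : IsOpen R := isOpen_iff_mem_nhds.2 fun y hy => mem_of_superset (u1 y hy) (u2 y hy)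
  obtain ⟨s, s1, s2, s3⟩ := TopologicalSpace.countable_cover_nhdsWithin
    (f := fun y => interior (U y)) (s := R)
    fun y hy => mem_nhdsWithin_of_mem_nhds (interior_mem_nhds.2 (u1 y hy))
  have := s2.to_subtype
  obtain ⟨B, b1, b2, b3, b4⟩ : ∃ B : s → Set Y.X, (∀ i, MeasurableSet (B i)) ∧
      (∀ i, B i ⊆ U i) ∧ Pairwise (Function.onFun Disjoint B) ∧ ⋃ i, B i = R := by
    obtain ⟨k, hk⟩ := exists_injective_nat s
    refine ⟨fun i => interior (U i) \ ⋃ j : s, ⋃ (_ : k j < k i), interior (U j),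
      fun i => isOpen_interior.measurableSet.diff
        (isOpen_iUnion fun _ => isOpen_iUnion fun _ => isOpen_interior).measurableSet,
      fun i => sdiff_subset.trans interior_subset, fun i j hij => disjoint_left.2 fun y a1 a2 => ?_,
      Subset.antisymm (iUnion_subset fun i => sdiff_subset.trans
        (interior_subset.trans (u2 _ (s1 i.2)))) fun y hy => ?_⟩
    · rcases lt_or_gt_of_ne (hk.ne hij) with h | h
      · exact a2.2 (mem_iUnion₂.2 ⟨i, h, a1.1⟩)
      · exact a1.2 (mem_iUnion₂.2 ⟨j, h, a2.1⟩)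
    · obtain ⟨i, hi, h⟩ := mem_iUnion₂.1 (s3 hy)
      obtain ⟨j, h1, h2⟩ := (InvImage.wf k Nat.lt_wfRel.wf).has_min
        {j : s | y ∈ interior (U j)} ⟨⟨i, hi⟩, h⟩
      refine mem_iUnion.2 ⟨j, h1, fun h3 => ?_⟩
      obtain ⟨l, h4, h5⟩ := mem_iUnion₂.1 h3
      exact h2 l h5 h4
  have hQ : MeasurableSet (range D.q)ᶜ := (finite_range D.q).isClosed.isOpen_compl.measurableSet
  have hp : ContinuousOn D.p (range D.q)ᶜ := fun x hx => (Tc.p_cont D hx).continuousWithinAt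
  have n1 : volX Z.X (range D.q) = 0 := null (finite_range D.q).isClosed.measurableSet
    fun e _ => (((finite_range D.q).image e).subset fun w hw =>
      ⟨_, hw.2, e.right_inv hw.1⟩).measure_zero _
  have n2 : volX Y.X Rᶜ = 0 := null hRo.measurableSet.compl fun e he => by
    refine measure_mono_null (fun w hw => ?_) (measure_iUnion_null fun i : Fin D.n × Bool =>
      KT.DP.null_img (ν := fun v => D.ν i.1 v.1 (All.dir i.2 v.2)) KT.DP.null_axis
        (fun v hv => (D.std i.1).etale i.2 v ⟨?_, ?_⟩) he)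
    · obtain ⟨i, c, u, h⟩ := (D.cov (e.symm w)).resolve_left fun ⟨z, a1, a2⟩ => hw.2 ⟨z, a1, a2⟩
      exact mem_iUnion.2 ⟨(i, c), hw.1, (0, u), rfl, ((D.std i).zero c u).trans h⟩
    · rcases i with ⟨i, _ | _⟩ <;> simp [All.dir]
    · rw [show v.1 = 0 from hv, norm_zero, zero_mul]
      exact D.pos
  have e1 : (range D.q)ᶜ = ⋃ i, (range D.q)ᶜ ∩ D.p ⁻¹' B i := by
    rw [← inter_iUnion, ← preimage_iUnion, b4]
    exact (inter_eq_left.2 (subset_preimage_image _ _)).symm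
  have t1 := hasSum_integral_iUnion (fun i => meas_inter hp hQ (b1 i))
    (fun i j hij => ((b3 hij).preimage D.p).mono inter_subset_right inter_subset_right)
    (integ (vf_reg Z)).integrableOn
  have t2 := (hasSum_integral_iUnion b1 b3 (integ (vf_reg Y)).integrableOn).mul_left 2
  rw [← e1] at t1
  rw [b4] at t2
  simp only [fun i : s => u3 i (s1 i.2) _ (b2 i) (b1 i)] at t1
  rw [← setIntegral_univ, ← setIntegral_univ (μ := volX Y.X),
    setIntegral_congr_set (ae_eq_univ.2 ((compl_compl (range D.q)).symm ▸ n1 :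
      volX Z.X (range D.q)ᶜᶜ = 0)).symm,
    setIntegral_congr_set (ae_eq_univ.2 n2).symm]
  exact t1.unique t2

end Vl

open Vl in
theorem vol : StVol := by
  intro Y Z D hJ
  let : MeasurableSpace Y.X := borel Y.X
  have : BorelSpace Y.X := ⟨rfl⟩
  let : MeasurableSpace Z.X := borel Z.X
  have : BorelSpace Z.X := ⟨rfl⟩
  have h : ∀ X : W.K3, pair (omF X) (omF X).bar = FL.intV (vf X) := fun X =>
    FL.intX_eq_intV (FL.integrableX_of_reg (vf_reg X) (HasCompactSupport.of_compactSpace _))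
      (HasCompactSupport.of_compactSpace _)
  rw [h, h, FL.intV, FL.intV, total D hJ, mul_smul_comm]

end Vale.Agent.P290Z.Cov
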